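import Vale.Agent.P141.H998.EndOf
import Vale.Agent.P141.H337.ExcM

/-!
# P141, line END: the local mass of the births

`lmM s a c B cf k y`: the sum of `|cf b| * 4 ^ r * pw3` over the births `b` of scale `r ≥ k` with a
form value within `a * 2 ^ r` of the cell of scale `r` of `y`.  `exM_lmM`: the second exceptional
family.  `endStm_of_main`: END from the estimate of the main family only.
-/

namespace Vale.Agent.P141.H998

open Finset
open Vale.Agent.P141.H315 Vale.Agent.P141.H347 Vale.Agent.P141.H8 Vale.Agent.P141.H935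
open Vale.Agent.P141.PL (Pt cx el fc)
open Vale.Agent.P141.PL.H315 (avg cube3 atm Tri mem_cube3)
open Vale.Agent.P141.PL.H318 (CSys a1 csz ixs mem_gs)
open Vale.Agent.P141.PL.H95 (gr mem_gr card_gr)
open Vale.Agent.P141.PL.H855 (N4 AtS EndIn EndStm)
open Vale.Agent.P141.H610 (BoxHyp)
open Vale.Agent.P141.H829 (Bok Brs bw bw_nonneg)
open Vale.Agent.P141.H922 (pw3 pw3_nonneg)
open Vale.Agent.P141.H337 (lms nrc nrc_const card_nrc rgn_small tm_top tm_const tops_m Tm)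

noncomputable section

open scoped Classical

variable {α ι κι : Type*} {s : ℤ}

/-- the local mass of one birth -/
def mB (cf : Bi → ℝ) (b : Bi) : ℝ := |cf b| * (4 ^ b.1.1 * pw3 (cube3 b.1.1 b.1.2) b.2)

theorem mB_nonneg (cf : Bi → ℝ) (b : Bi) : 0 ≤ mB cf b :=
  mul_nonneg (abs_nonneg _) (mul_nonneg (by positivity) (pw3_nonneg _ _))

theorem mB_two (cf : Bi → ℝ) (b : Bi) : mB cf b * 2 ^ b.1.1 = |cf b| * bw b := by
  unfold mB bw
  rw [show (8 : ℝ) = 4 * 2 by norm_num, mul_pow]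
  ring

/-- **The local mass of the births** at the cell `(k, y)`. -/
def lmM (s a : ℤ) (c : Pt) (B : Finset Bi) (cf : Bi → ℝ) (k : ℕ) (y : ℤ) : ℝ :=
  lms B (fun b => b.1.1) (fun b y => nrc c 7 s a b.1.1 b.1.2 y) (mB cf) k y

theorem lmM_eq (a : ℤ) (c : Pt) (B : Finset Bi) (cf : Bi → ℝ) (k : ℕ) (y : ℤ) :
    lmM s a c B cf k y =
      ∑ b ∈ B, if k ≤ b.1.1 ∧ nrc c 7 s a b.1.1 b.1.2 y then mB cf b else 0 := rfl

/-- the births read at a cell are paid by the local mass -/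
theorem sum_le_lmM {c : Pt} {a : ℤ} {B S : Finset Bi} {cf : Bi → ℝ} (hS : S ⊆ B) {k : ℕ} {y : ℤ}
    (h : ∀ b ∈ S, k ≤ b.1.1 ∧ nrc c 7 s a b.1.1 b.1.2 y) :
    ∑ b ∈ S, mB cf b ≤ lmM s a c B cf k y :=
  Vale.Agent.P141.H337.sum_le_lms (fun b _ => mB_nonneg cf b) hS h

/-- **The second exceptional family.** -/
theorem exM_lmM {c : Pt} (hc : csz c ≤ 2 ^ 7) {a : ℤ} (ha : 0 ≤ a) {m1 Mm : ℝ} (hm1 : 0 < m1) :
    ExM s c (lmM s a) m1 Mm (m1⁻¹ * (2 * a + 513) * Mm) := by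
  intro Λ x gd ud hR B cf _ hM
  have hm : ∀ b ∈ B, 0 ≤ mB cf b := fun b _ => mB_nonneg cf b
  have hn : ∀ b ∈ B, ∀ y z, z ∈ (gr 7 s).cube b.1.1 y →
      (nrc c 7 s a b.1.1 b.1.2 z ↔ nrc c 7 s a b.1.1 b.1.2 y) := fun b _ y z hz => nrc_const hz
  refine ⟨fun k y => m1 < lmM s a c B cf k y,
    Tm B (fun b => b.1.1) (fun b y => nrc c 7 s a b.1.1 b.1.2 y) (mB cf) Λ m1,
    rgn_small hm hn hR, fun k y _ h => not_lt.1 h, fun k y hu h => tm_top (hR.bel k y hu).1 h,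
    tm_const hn, ?_⟩
  refine (tops_m hm hm1 ud _).trans ?_
  have hA : (0 : ℝ) ≤ 2 * a + 513 := by
    have : (0 : ℝ) ≤ a := by exact_mod_cast ha
    linarith
  have h1 : ∀ b ∈ B, mB cf b *
      (((gr 7 s).cube Λ x).filter fun z => nrc c 7 s a b.1.1 b.1.2 z).card ≤
      (2 * a + 513) * (|cf b| * bw b) := by
    intro b _
    have h2 := mul_le_mul_of_nonneg_left
      (card_nrc (s := s) hc ha b.1.1 b.1.2 ((gr 7 s).cube Λ x)) (mB_nonneg cf b)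
    refine h2.trans (le_of_eq ?_)
    rw [← mB_two]
    norm_num
    ring
  have h3 := sum_le_sum h1
  rw [← mul_sum] at h3
  have h4 := h3.trans (mul_le_mul_of_nonneg_left hM hA)
  have h5 := mul_le_mul_of_nonneg_left h4 (inv_nonneg.2 hm1.le)
  refine h5.trans (le_of_eq ?_)
  ring

/-- **END from the estimate of the main family.** -/
theorem endStm_of_main {nv : N4 (gr 7 s) α} {gd : ℕ → ℤ → Prop} {L : ℕ}
    {S S' : Fin 4 → CSys (gr 7 s) ι} {w : ∀ m, LW (S m)} {w' : ∀ m, LW (S' m)}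
    {U : Fin 4 → CSys (gr 7 s) κι} {M Ma C e0 lam m1 e K κ μ Mm cM CP c : ℝ} {a : ℤ}
    (hw : ∀ i Λ x P, Λ ≤ L → AtS (w i) L Λ x M P → Brs 7 s (fc i) Λ x (Ma * cd (gr 7 s) Λ x) P)
    (hw' : ∀ i Λ x P, Λ ≤ L → AtS (w' i) L Λ x M P →
      Brs 7 s (fc i) Λ x (Ma * cd (gr 7 s) Λ x) P)
    (hM : MainEst nv gd L U (lmM s a) C e0 lam m1 e K κ μ Mm cM) (ha : 0 ≤ a) (hm1 : 0 < m1)
    (hcM : 0 ≤ cM) (hCP : 0 ≤ CP) (hb : BoxHyp nv gd CP) (hC : 0 < C) (he0 : 0 ≤ e0)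
    (hlam : 0 < lam) (he : 0 < e) (hK : 1 ≤ K) (hκ : 0 < κ) (hμ : 0 < μ) (hMm : 0 ≤ Mm)
    (hMa : 2 * Ma ≤ Mm)
    (hc : cM + restN CP C e0 lam e K κ μ Mm (m1⁻¹ * (2 * a + 513) * Mm) ≤ c) :
    EndStm nv gd L w w' U M C e0 e K c :=
  endStm_of hw hw' hM (fun σ => exM_lmM (Vale.Agent.P141.H585.csz_lc σ 0) ha hm1) hcM hCP hb hC
    he0 hlam he hK hκ hμ hMm hMa hc

end

end Vale.Agent.P141.H998
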