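import Vale.Agent.P141.H998.PMain
import Vale.Agent.P141.H829.Loc

/-!
# P141, line END: the decomposition of the static role function, structure form

`mainF`: the main family: at scale `k` the sum of one product atom per birth of scale `≥ k`.
`PDec`: birth cubes, vertex-type data, increments `F`, `P = mainF k + ∑ i ∈ Icc k Λ, F i` on every
cell of scale `k` which does not touch the border of the root, total of the increments.
`pdec_of_brs`: every `H829.Brs` has such a decomposition.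
`T1_pdec`, `T4_pdec`: the total with `P` in one slot = border + exceptional cells + main family
+ tiny slot.
-/

namespace Vale.Agent.P141.H998

open Finset
open Vale.Agent.P141.H315 Vale.Agent.P141.H347 Vale.Agent.P141.H8 Vale.Agent.P141.H935
open Vale.Agent.P141.PL (Pt cx el)
open Vale.Agent.P141.PL.H315 (avg cube3 atm Tri mem_cube3)
open Vale.Agent.P141.PL.H318 (a1 csz ixs mem_gs)
open Vale.Agent.P141.PL.H95 (gr mem_gr card_gr)
open Vale.Agent.P141.PL.H855 (N4)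
open Vale.Agent.P141.H585 (pwC rC VC mnA pwC_eq)
open Vale.Agent.P141.H610 (BoxHyp)
open Vale.Agent.P141.H829 (Bok Brs bw bw_nonneg)

noncomputable section

open scoped Classical

/-- the index type of the births: scale, cube, atom -/
abbrev Bi : Type := (ℕ × Pt) × Tri

/-- the density threshold of a birth -/
def thB (μ : ℝ) (b : Bi) : ℝ := μ / rC b.1.1 b.1.2 b.2 ^ 2

/-- the main atom of the birth `b` at scale `k` -/
def mnB (μ : ℝ) (E : Bi → Finset ℤ × Finset ℤ × Finset ℤ) (v : Bi → Tri) (b : Bi) (k : ℕ) : Tri :=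
  mnA (thB μ b) (E b).1 (E b).2.1 (E b).2.2 b.1.1 k (v b)

/-- the main family -/
def mainF (c : Pt) (μ : ℝ) (B : Finset Bi) (cf : Bi → ℝ)
    (E : Bi → Finset ℤ × Finset ℤ × Finset ℤ) (v : Bi → Tri) (k : ℕ) : ℤ → ℝ :=
  fun z => ∑ b ∈ B.filter (fun b => k ≤ b.1.1), cf b * a1 c b.1.1 (b.1.2, mnB μ E v b k) z

/-- **The decomposition of a static function on the cell `(Λ, x)`.** -/
structure PDec (s : ℤ) (c : Pt) (Λ : ℕ) (x : ℤ) (κ μ M : ℝ) (P : ℤ → ℝ) (B : Finset Bi)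
    (cf : Bi → ℝ) (E : Bi → Finset ℤ × Finset ℤ × Finset ℤ) (v : Bi → Tri)
    (F : ℕ → ℤ → ℝ) : Prop where
  bok : ∀ b ∈ B, Bok 7 s c Λ x b.1
  vc : ∀ b ∈ B, VC κ b.1.1 b.1.2 b.2 (v b) (E b).1 (E b).2.1 (E b).2.2
  mass : ∑ b ∈ B, |cf b| * bw b ≤ M
  dec : ∀ k ≤ Λ, ∀ y ∈ (gr 7 s).cube Λ x, ¬ Bdc s Λ x k y → ∀ z ∈ (gr 7 s).cube k y,
    P z = mainF c μ B cf E v k z + ∑ i ∈ Icc k Λ, F i z
  tot : ∑ i ∈ range (Λ + 1), ∑ z ∈ (gr 7 s).cube Λ x, √(en (gr 7 s) (F i) i z) ≤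
    16 * (6 * κ + 8 / (κ ^ 12 * √μ)) * M

variable {s : ℤ} {c : Pt} {Λ : ℕ} {x : ℤ} {κ μ M : ℝ} {P : ℤ → ℝ}

theorem bok_bdc {b : ℕ × Pt} (hb : Bok 7 s c Λ x b) {k : ℕ} (hk : b.1 < k) (hkL : k ≤ Λ) {y : Pt}
    (hy : y ∈ cube3 b.1 b.2) : Bdc s Λ x k (el c y) := by
  obtain ⟨t, h1, h2⟩ := hb.bor k hk hkL y hy
  have h3 : el c y ∈ (gr 7 s).cube Λ x := mem_gs.mpr (hb.ovr y hy)
  have h4 : t ∉ (gr 7 s).cube Λ x := fun h => h2 (mem_gs.mp h)
  exact bdc_of_near hkL h3 h4 (by rw [abs_sub_comm]; exact h1)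

theorem pwC_bw (b : Bi) : pwC b.1.1 b.1.2 b.2 * 8 ^ b.1.1 = bw b := by
  rw [pwC_eq, mul_comm]; rfl

/-- **Every sum of births has a decomposition.** -/
theorem pdec_of_brs (h : Brs 7 s c Λ x M P) (hc : csz c ≤ 2 ^ 7) (h1 : c.1 ≠ 0)
    (h2 : c.2.1 ≠ 0) (h3 : c.2.2 ≠ 0) (hκ : 0 < κ) (hμ : 0 < μ) :
    ∃ B cf E v F, PDec s c Λ x κ μ M P B cf E v F := by
  obtain ⟨B, cf, hB, hP, hM⟩ := h
  choose v E1 E2 E3 F hv hF hs using fun b : Bi =>
    vt_line_root (c0 := 7) hc h1 h2 h3 hκ hμ b.1.1 b.1.2 b.2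
  refine ⟨B, cf, fun b => (E1 b, E2 b, E3 b), v,
    fun i z => ∑ b ∈ B, if i ≤ b.1.1 then cf b * F b i z else 0, hB, fun b _ => hv b, hM, ?_, ?_⟩
  · intro k hk y hy hnb z hz
    have hzL : z ∈ (gr 7 s).cube Λ x := (gr 7 s).cube_subset hk hy hz
    rw [hP z hzL]
    unfold mainF
    have e1 : ∑ i ∈ Icc k Λ, (∑ b ∈ B, if i ≤ b.1.1 then cf b * F b i z else 0) =
        ∑ b ∈ B.filter (fun b => k ≤ b.1.1), ∑ i ∈ Icc k b.1.1, cf b * F b i z := by
      rw [sum_comm, sum_filter]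
      refine sum_congr rfl fun b hb => ?_
      rw [← sum_filter]
      have hrb := (hB b hb).le
      split_ifs with h4
      · refine sum_congr ?_ fun _ _ => rfl
        ext i
        simp only [mem_filter, mem_Icc]
        omega
      · refine sum_eq_zero fun i hi => ?_
        simp only [mem_filter, mem_Icc] at hi
        omega
    rw [e1, ← sum_add_distrib, sum_filter]
    refine sum_congr rfl fun b hb => ?_
    split_ifs with h4
    · have e2 := congrFun (hF b k h4) z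
      simp only [Pi.add_apply, Finset.sum_apply] at e2
      rw [e2, mul_add, mul_sum]
      rfl
    · have e3 : a1 c b.1.1 (b.1.2, b.2) z = 0 := by
        unfold a1
        refine sum_eq_zero fun y' hy' => if_neg fun he => hnb ?_
        have e4 := bok_bdc (hB b hb) (by omega : b.1.1 < k) hk hy'
        rw [he] at e4
        exact (bdc_const s Λ x k y z hz).1 e4
      rw [e3, mul_zero]
  · have e1 : ∀ i z, √(en (gr 7 s) (fun z => ∑ b ∈ B, if i ≤ b.1.1 then cf b * F b i z else 0)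
        i z) ≤ ∑ b ∈ B, if i ≤ b.1.1 then |cf b| * √(en (gr 7 s) (F b i) i z) else 0 := by
      intro i z
      have e2 : (fun z => ∑ b ∈ B, if i ≤ b.1.1 then cf b * F b i z else 0) =
          ∑ b ∈ B, (if i ≤ b.1.1 then cf b • F b i else 0) := by
        funext w
        rw [Finset.sum_apply]
        refine sum_congr rfl fun b _ => ?_
        split_ifs <;> rfl
      rw [e2]
      refine (sqrt_en_sum B _ i z).trans (le_of_eq (sum_congr rfl fun b _ => ?_))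
      split_ifs
      · have e3 : en (gr 7 s) (cf b • F b i) i z = cf b ^ 2 * en (gr 7 s) (F b i) i z := by
          unfold en dot
          rw [← mul_div_assoc, mul_sum]
          congr 1
          refine sum_congr rfl fun y _ => ?_
          simp only [Pi.smul_apply, smul_eq_mul]
          ring
        rw [e3, Real.sqrt_mul (sq_nonneg _), Real.sqrt_sq_eq_abs]
      · unfold en dot; simp
    refine (sum_le_sum fun i _ => sum_le_sum fun z _ => e1 i z).trans ?_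
    have e4 : ∑ i ∈ range (Λ + 1), ∑ z ∈ (gr 7 s).cube Λ x,
        (∑ b ∈ B, if i ≤ b.1.1 then |cf b| * √(en (gr 7 s) (F b i) i z) else 0) =
        ∑ b ∈ B, ∑ i ∈ range (Λ + 1), ∑ z ∈ (gr 7 s).cube Λ x,
          (if i ≤ b.1.1 then |cf b| * √(en (gr 7 s) (F b i) i z) else 0) := by
      have e5 : ∀ i ∈ range (Λ + 1), ∑ z ∈ (gr 7 s).cube Λ x,
          (∑ b ∈ B, if i ≤ b.1.1 then |cf b| * √(en (gr 7 s) (F b i) i z) else 0) =
          ∑ b ∈ B, ∑ z ∈ (gr 7 s).cube Λ x,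
            (if i ≤ b.1.1 then |cf b| * √(en (gr 7 s) (F b i) i z) else 0) :=
        fun i _ => sum_comm
      rw [sum_congr rfl e5]
      exact sum_comm
    rw [e4]
    have e5 : ∀ b ∈ B, ∑ i ∈ range (Λ + 1), ∑ z ∈ (gr 7 s).cube Λ x,
        (if i ≤ b.1.1 then |cf b| * √(en (gr 7 s) (F b i) i z) else 0) ≤
        16 * (6 * κ + 8 / (κ ^ 12 * √μ)) * (|cf b| * bw b) := by
      intro b hb
      have hrb := (hB b hb).le
      have e6 : ∑ i ∈ range (Λ + 1), ∑ z ∈ (gr 7 s).cube Λ x,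
          (if i ≤ b.1.1 then |cf b| * √(en (gr 7 s) (F b i) i z) else 0) =
          |cf b| * ∑ i ∈ range (b.1.1 + 1), ∑ z ∈ (gr 7 s).cube Λ x,
            √(en (gr 7 s) (F b i) i z) := by
        rw [mul_sum]
        symm
        refine sum_subset_zero_on_sdiff (fun i hi => ?_) (fun i hi => ?_) (fun i hi => ?_)
        · have := mem_range.1 hi
          exact mem_range.2 (by omega)
        · rw [mem_sdiff, mem_range, mem_range] at hi
          exact sum_eq_zero fun z _ => if_neg (by omega)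
        · have := mem_range.1 hi
          rw [mul_sum]
          exact sum_congr rfl fun z _ => (if_pos (by omega)).symm
      rw [e6]
      have e7 := mul_le_mul_of_nonneg_left (hs b Λ hrb s x) (abs_nonneg (cf b))
      refine e7.trans (le_of_eq ?_)
      have e8 : √(2 * 2 ^ 7 : ℝ) = 16 := by
        rw [show (2 * 2 ^ 7 : ℝ) = 16 ^ 2 by norm_num, Real.sqrt_sq (by norm_num)]
      rw [e8, pwC_bw]
      ring
    refine (sum_le_sum e5).trans ?_
    rw [← mul_sum]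
    exact mul_le_mul_of_nonneg_left hM (by positivity)

variable {α : Type*} {gd ud : ℕ → ℤ → Prop} {B : Finset Bi} {cf : Bi → ℝ}
  {E : Bi → Finset ℤ × Finset ℤ × Finset ℤ} {v : Bi → Tri} {F : ℕ → ℤ → ℝ}

/-- the cells which are neither at the border of the root nor exceptional -/
def Gd (s : ℤ) (Λ : ℕ) (x : ℤ) (ud Q : ℕ → ℤ → Prop) : ℕ → ℤ → Prop :=
  fun k y => ud k y ∧ ¬ Bdc s Λ x k y ∧ ¬ Q k y

/-- **The total with the role function `P` in one slot**, `Q` any set of exceptional cells. -/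
theorem T1_pdec (hd : PDec s c Λ x κ μ M P B cf E v F) {sl : Sl ℤ α} {b : ℝ} (hb : 0 ≤ b)
    (had : sl.Ad) (hcg : sl.Cg (gr 7 s)) (hB : BB (gr 7 s) sl gd ud b)
    (hR : Rgn (gr 7 s) gd Λ x ud) (Q : ℕ → ℤ → Prop) :
    T1 sl ud (st P) ≤ T1 sl (An ud (Bdc s Λ x)) (st P) + T1 sl (An ud Q) (st P) +
      T1 sl (Gd s Λ x ud Q) (mainF c μ B cf E v) +
      4 * b * (16 * (6 * κ + 8 / (κ ^ 12 * √μ)) * M) := by
  have e1 : T1 sl ud (st P) ≤ T1 sl (An ud (Bdc s Λ x)) (st P) + T1 sl (An ud Q) (st P) +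
      T1 sl (Gd s Λ x ud Q) (st P) := by
    unfold T1 An Gd
    rw [← sum_add_distrib, ← sum_add_distrib]
    refine sum_le_sum fun N _ => ?_
    have h0 : 0 ≤ |sl.v N (st P (sl.sc N))| := abs_nonneg _
    by_cases h1 : ud (sl.sc N) (sl.pt N) <;> by_cases h2 : Bdc s Λ x (sl.sc N) (sl.pt N) <;>
      by_cases h3 : Q (sl.sc N) (sl.pt N) <;> simp [h1, h2, h3]
  have e2 : T1 sl (Gd s Λ x ud Q) (st P) = T1 sl (Gd s Λ x ud Q)
      (fun k => mainF c μ B cf E v k + ∑ i ∈ Icc k Λ, F i) := by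
    refine T1_congr hcg fun k y hu z hz => ?_
    obtain ⟨hu, hnb, _⟩ := hu
    obtain ⟨hk, hy⟩ := hR.bel k y hu
    rw [Pi.add_apply, Finset.sum_apply]
    exact hd.dec k hk y hy hnb z hz
  have e3 := T1_add (s := sl) (ud := Gd s Λ x ud Q) had (mainF c μ B cf E v)
    (fun k => ∑ i ∈ Icc k Λ, F i)
  have e4 := T1_mono (s := sl) (ud := ud) (ud' := Gd s Λ x ud Q)
    (fun k => ∑ i ∈ Icc k Λ, F i) (fun k y hy => hy.1)
  have e5 := ts2 hb had hB hR F
  have e6 : ∑ i ∈ range (Λ + 1), ∑ z ∈ (gr 7 s).cube Λ x,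
      (if ud i z then √(en (gr 7 s) (F i) i z) else 0) ≤
      16 * (6 * κ + 8 / (κ ^ 12 * √μ)) * M := by
    refine le_trans (sum_le_sum fun i _ => sum_le_sum fun z _ => ?_) hd.tot
    split_ifs
    · exact le_rfl
    · exact Real.sqrt_nonneg _
  have e7 := mul_le_mul_of_nonneg_left e6 (by positivity : 0 ≤ 4 * b)
  rw [e2] at e1
  linarith

/-- **END configuration**: border and tiny slot paid by the black box. -/
theorem T4_pdec (hd : PDec s c Λ x κ μ M P B cf E v F) {nv : N4 (gr 7 s) α} {CP : ℝ}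
    (σ : Equiv.Perm (Fin 4)) {G1 : ℤ → ℝ} {tt : ℕ → ℤ → ℕ} {W : Fin 2 → ℕ → ℤ → ℝ}
    {eP eG e Kp : ℝ} (hCP : 0 ≤ CP) (hb : BoxHyp nv gd CP) (hR : Rgn (gr 7 s) gd Λ x ud)
    (heP : 0 < eP) (heG : 0 < eG) (he : 0 < e) (hK : 1 ≤ Kp) (hPe : En (gr 7 s) ud P eP)
    (hGe : En (gr 7 s) ud G1 eG) (hW : Fam2 (gr 7 s) ud Λ tt W e Kp) (Q : ℕ → ℤ → Prop) :
    T4 (nv.toNV σ) ud (st P) (st G1) (mv tt (W 0)) (mv tt (W 1)) ≤
      T4 (nv.toNV σ) (An ud Q) (st P) (st G1) (mv tt (W 0)) (mv tt (W 1)) +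
      T4 (nv.toNV σ) (Gd s Λ x ud Q) (mainF c μ B cf E v) (st G1) (mv tt (W 0)) (mv tt (W 1)) +
      CP * √eG * e * (64 * (68 * 10 ^ 4) * Kp * (6 * κ + 8 / (κ ^ 12 * √μ)) * M +
        68 ^ 4 / 32 * √eP * cd (gr 7 s) Λ x) := by
  have hBB := bb1 (ud := ud) hCP hb σ (by positivity) (by positivity) (by positivity)
    (slR_st (s := s) (gd := gd) heG hGe) (slR_fam hR he hK hW 0) (slR_fam hR he hK hW 1)
  have k1 := T1_pdec hd (sl := sl1 (nv.toNV σ) (st G1) (mv tt (W 0)) (mv tt (W 1)))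
    (by positivity) (ad1 _ _ _ _) (cg1 _ _ _ _) hBB hR Q
  have hmv : ∀ j k y, ud k y → dot ((gr 7 s).cube k y) (mv tt (W j) k) (mv tt (W j) k) ≤
      e * cd (gr 7 s) k y := by
    intro j k y hu
    refine le_trans (le_of_eq ?_) (hW.en j k y hu)
    unfold dot mv
    exact sum_congr rfl fun z hz => by rw [hW.lab.const k (hR.bel k y hu).1 y z hz]
  have k2 := T4_border (A := st P) (B := st G1) hCP hb σ hR heP heG he he
    (fun k y hu => hPe k y hu) (fun k y hu => hGe k y hu) (hmv 0) (hmv 1)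
  have e1 : √(eP * eG * e * e) = √eP * √eG * e := by
    rw [mul_assoc (eP * eG), Real.sqrt_mul (by positivity), Real.sqrt_mul heP.le,
      Real.sqrt_mul_self he.le]
  have e2 : √(e * Kp) * √(e * Kp) = e * Kp := Real.mul_self_sqrt (by positivity)
  rw [e1] at k2
  have e3 : 4 * (CP * (68 * √eG * (100 * √(e * Kp)) * (100 * √(e * Kp)))) *
      (16 * (6 * κ + 8 / (κ ^ 12 * √μ)) * M) =
      CP * √eG * e * (64 * (68 * 10 ^ 4) * Kp * (6 * κ + 8 / (κ ^ 12 * √μ)) * M) := by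
    have : 4 * (CP * (68 * √eG * (100 * √(e * Kp)) * (100 * √(e * Kp)))) =
        CP * √eG * (4 * 68 * 10 ^ 4) * (√(e * Kp) * √(e * Kp)) := by ring
    rw [this, e2]
    ring
  rw [e3] at k1
  have e4 : ∀ (ud' : ℕ → ℤ → Prop) (A : ℕ → ℤ → ℝ),
      T1 (sl1 (nv.toNV σ) (st G1) (mv tt (W 0)) (mv tt (W 1))) ud' A =
      T4 (nv.toNV σ) ud' A (st G1) (mv tt (W 0)) (mv tt (W 1)) := fun _ _ => rfl
  rw [e4, e4, e4, e4] at k1
  have e6 : CP * √eG * e * (64 * (68 * 10 ^ 4) * Kp * (6 * κ + 8 / (κ ^ 12 * √μ)) * M +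
      68 ^ 4 / 32 * √eP * cd (gr 7 s) Λ x) =
      CP * √eG * e * (64 * (68 * 10 ^ 4) * Kp * (6 * κ + 8 / (κ ^ 12 * √μ)) * M) +
      CP * 68 ^ 4 / 32 * (√eP * √eG * e) * cd (gr 7 s) Λ x := by ring
  rw [e6]
  linarith

end

end Vale.Agent.P141.H998
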