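import Vale.Agent.P141.H998.PDec
import Vale.Agent.P141.H379.Exc
import Vale.Agent.P141.H585.PermE

/-!
# P141, line END: the END statement from the estimate of the main family

`MainEst`: the estimate of the main family on the cells off the border, on a region where the
accumulated tiny part and the local masses are small.
`ExM`: the second exceptional family (large local mass of the births).
`endStm_of`: `MainEst` and `ExM` imply `EndStm` of `PL/H855/EndDefs`.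
-/

namespace Vale.Agent.P141.H998

open Finset
open Vale.Agent.P141.H315 Vale.Agent.P141.H347 Vale.Agent.P141.H8 Vale.Agent.P141.H935
open Vale.Agent.P141.PL (Pt cx el fc)
open Vale.Agent.P141.PL.H315 (avg cube3 atm Tri mem_cube3)
open Vale.Agent.P141.PL.H318 (CSys a1 csz ixs mem_gs)
open Vale.Agent.P141.PL.H95 (gr mem_gr card_gr)
open Vale.Agent.P141.PL.H855 (N4 AtS EndIn EndStm)
open Vale.Agent.P141.H610 (BoxHyp T4_of_box)
open Vale.Agent.P141.H829 (Bok Brs bw bw_nonneg)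
open Vale.Agent.P141.H379 (Dl Ex T4_exc rgn_nex en_le_of_nex)
open Vale.Agent.P141.H911 (lc lc_ne)
open Vale.Agent.P141.H585 (brs_lc csz_lc)

noncomputable section

open scoped Classical

variable {α ι κι : Type*} {s : ℤ}

/-- **The estimate of the main family** (`lmf c B cf k y` = the local mass of the births at the cell
`(k, y)`). -/
def MainEst (nv : N4 (gr 7 s) α) (gd : ℕ → ℤ → Prop) (L : ℕ) (U : Fin 4 → CSys (gr 7 s) κι)
    (lmf : Pt → Finset Bi → (Bi → ℝ) → ℕ → ℤ → ℝ) (C e0 lam m1 e K κ μ Mm cM : ℝ) : Prop :=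
  ∀ (σ : Equiv.Perm (Fin 4)) (Λ : ℕ) (x : ℤ) (ud : ℕ → ℤ → Prop), Λ ≤ L →
    Rgn (gr 7 s) gd Λ x ud → ud Λ x → ∀ (P GP D G1 : ℤ → ℝ) (B : Finset Bi) (cf : Bi → ℝ)
      (E : Bi → Finset ℤ × Finset ℤ × Finset ℤ) (v : Bi → Tri) (F : ℕ → ℤ → ℝ),
    PDec s (lc σ.symm 0) Λ x κ μ (Mm * cd (gr 7 s) Λ x) P B cf E v F →
    (∀ z ∈ (gr 7 s).cube Λ x, P z = GP z + D z) →
    Un (U (σ.symm 0)) C ud GP → En (gr 7 s) ud GP C → En (gr 7 s) ud D (C * e0) →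
    Un (U (σ.symm 1)) C ud G1 → En (gr 7 s) ud G1 C →
    (∀ k y, ud k y → en (gr 7 s) (Dl F Λ k) k y ≤ lam) →
    (∀ k y, ud k y → lmf (lc σ.symm 0) B cf k y ≤ m1) →
    ∀ (t : ℕ → ℤ → ℕ) (W : Fin 2 → ℕ → ℤ → ℝ), Fam2 (gr 7 s) ud Λ t W e K →
      T4 (nv.toNV σ) (An ud fun k y => ¬ Bdc s Λ x k y) (mainF (lc σ.symm 0) μ B cf E v)
        (st G1) (mv t (W 0)) (mv t (W 1)) ≤ cM * cd (gr 7 s) Λ x

/-- **The second exceptional family**: cells with a large local mass of the births. -/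
def ExM (s : ℤ) (c : Pt) (lmf : Pt → Finset Bi → (Bi → ℝ) → ℕ → ℤ → ℝ) (m1 Mm τ : ℝ) : Prop :=
  ∀ (Λ : ℕ) (x : ℤ) (gd ud : ℕ → ℤ → Prop), Rgn (gr 7 s) gd Λ x ud →
    ∀ (B : Finset Bi) (cf : Bi → ℝ), (∀ b ∈ B, Bok 7 s c Λ x b.1) →
      ∑ b ∈ B, |cf b| * bw b ≤ Mm * cd (gr 7 s) Λ x →
      ∃ Q T : ℕ → ℤ → Prop, Rgn (gr 7 s) gd Λ x (An ud fun k y => ¬ Q k y) ∧
        (∀ k y, ud k y → ¬ Q k y → lmf c B cf k y ≤ m1) ∧
        (∀ k y, ud k y → Q k y → ∃ i, k ≤ i ∧ i ≤ Λ ∧ T i y) ∧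
        (∀ i y z, z ∈ (gr 7 s).cube i y → (T i z ↔ T i y)) ∧
        ∑ i ∈ range (Λ + 1), ∑ z ∈ (gr 7 s).cube Λ x, (if ud i z ∧ T i z then (1 : ℝ) else 0) ≤
          τ * cd (gr 7 s) Λ x

theorem fam2_mono {X : Type*} {g : Grid X} {ud ud' : ℕ → X → Prop} {Λ : ℕ} {t : ℕ → X → ℕ}
    {W : Fin 2 → ℕ → X → ℝ} {e K : ℝ} (h : Fam2 g ud Λ t W e K)
    (hs : ∀ k y, ud' k y → ud k y) : Fam2 g ud' Λ t W e K where
  lab := h.lab
  en j k y hu := h.en j k y (hs k y hu)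
  pack k y hu := by
    refine le_trans ?_ (h.pack k y (hs k y hu))
    unfold tops
    refine sum_le_sum fun i _ => sum_le_sum fun z _ => ?_
    by_cases h1 : ud' i z ∧ t i z = i
    · rw [if_pos h1, if_pos ⟨hs i z h1.1, h1.2⟩]
    · rw [if_neg h1]; split_ifs <;> norm_num

theorem en_mono {ud ud' : ℕ → ℤ → Prop} {G : ℤ → ℝ} {a : ℝ} (h : En (gr 7 s) ud G a)
    (hs : ∀ k y, ud' k y → ud k y) : En (gr 7 s) ud' G a := fun k y hu => h k y (hs k y hu)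

theorem un_mono {ud ud' : ℕ → ℤ → Prop} {G : ℤ → ℝ} {a : ℝ} {S : CSys (gr 7 s) κι}
    (h : Un S a ud G) (hs : ∀ k y, ud' k y → ud k y) : Un S a ud' G :=
  fun k y hu => h k y (hs k y hu)

variable {gd ud : ℕ → ℤ → Prop} {Λ : ℕ} {x : ℤ}

/-- the energy of a sum of two functions on the root -/
theorem en_sum {P GP D : ℤ → ℝ} {a b : ℝ} (hR : Rgn (gr 7 s) gd Λ x ud)
    (hP : ∀ z ∈ (gr 7 s).cube Λ x, P z = GP z + D z) (hG : En (gr 7 s) ud GP a)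
    (hD : En (gr 7 s) ud D b) : En (gr 7 s) ud P (2 * (a + b)) := by
  intro k y hu
  obtain ⟨hk, hy⟩ := hR.bel k y hu
  have h1 := hG k y hu
  have h2 := hD k y hu
  have h3 : dot ((gr 7 s).cube k y) P P ≤
      2 * dot ((gr 7 s).cube k y) GP GP + 2 * dot ((gr 7 s).cube k y) D D := by
    unfold dot
    rw [mul_sum, mul_sum, ← sum_add_distrib]
    refine sum_le_sum fun z hz => ?_
    rw [hP z ((gr 7 s).cube_subset hk hy hz)]
    nlinarith [sq_nonneg (GP z - D z)]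
  nlinarith

/-- the totals of the regions below one cell, END configuration -/
theorem T4_bw {nv : N4 (gr 7 s) α} {CP : ℝ} (hCP : 0 ≤ CP) (hb : BoxHyp nv gd CP)
    (σ : Equiv.Perm (Fin 4)) (hR : Rgn (gr 7 s) gd Λ x ud) {P G1 : ℤ → ℝ} {eP eG e K : ℝ}
    (heP : 0 < eP) (heG : 0 < eG) (he : 0 < e) (hK : 1 ≤ K) (hPe : En (gr 7 s) ud P eP)
    (hGe : En (gr 7 s) ud G1 eG) {t : ℕ → ℤ → ℕ} {W : Fin 2 → ℕ → ℤ → ℝ}
    (hW : Fam2 (gr 7 s) ud Λ t W e K) {i : ℕ} (hi : i ≤ Λ) {z : ℤ} (hu : ud i z) :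
    T4 (nv.toNV σ) (Bw (gr 7 s) ud i z) (st P) (st G1) (mv t (W 0)) (mv t (W 1)) ≤
      362 * 10 ^ 3 * CP * (√eP * √eG * (e * K)) * cd (gr 7 s) i z := by
  have h1 := rgn_bw hR hi z
  have h2 : Bw (gr 7 s) ud i z i z := ⟨hu, le_rfl, (gr 7 s).mem i z⟩
  have h3 := T4_of_box hb σ h1 h2 (slR_st heP hPe i z _ h1 (fun _ _ hy => hy.1) h2)
    (slR_st heG hGe i z _ h1 (fun _ _ hy => hy.1) h2)
    (slR_fam hR he hK hW 0 i z _ h1 (fun _ _ hy => hy.1) h2)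
    (slR_fam hR he hK hW 1 i z _ h1 (fun _ _ hy => hy.1) h2)
  refine h3.trans (mul_le_mul_of_nonneg_right ?_ (cd_pos _ _ _).le)
  have h4 : √(e * K) * √(e * K) = e * K := Real.mul_self_sqrt (by positivity)
  have h5 : CP * (68 * √eP * (68 * √eG) * (100 * √(e * K)) * (100 * √(e * K))) / 128 =
      361250 * (CP * (√eP * √eG * (√(e * K) * √(e * K)))) := by ring
  rw [h5, h4]
  have h6 : 0 ≤ CP * (√eP * √eG * (e * K)) := by positivity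
  nlinarith

/-- the tiny total per point -/
def tinyN (κ μ Mm : ℝ) : ℝ := 16 * (6 * κ + 8 / (κ ^ 12 * √μ)) * Mm

/-- the cost of everything except the main family, per point -/
def restN (CP C e0 lam e K κ μ Mm τ : ℝ) : ℝ :=
  362 * 10 ^ 3 * CP * (√(2 * (C + C * e0)) * √C * (e * K)) * ((√lam)⁻¹ * tinyN κ μ Mm + τ) +
    CP * √C * e * (4 * (68 * 10 ^ 4) * K * tinyN κ μ Mm + 68 ^ 4 / 32 * √(2 * (C + C * e0)))

/-- **One region.** -/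
theorem end_one {nv : N4 (gr 7 s) α} {L : ℕ} {U : Fin 4 → CSys (gr 7 s) κι}
    {lmf : Pt → Finset Bi → (Bi → ℝ) → ℕ → ℤ → ℝ} {C e0 lam m1 e K κ μ Mm cM CP τ : ℝ}
    (hM : MainEst nv gd L U lmf C e0 lam m1 e K κ μ Mm cM)
    (hX : ∀ σ : Equiv.Perm (Fin 4), ExM s (lc σ 0) lmf m1 Mm τ) (hcM : 0 ≤ cM) (hCP : 0 ≤ CP)
    (hb : BoxHyp nv gd CP) (hC : 0 < C) (he0 : 0 ≤ e0) (hlam : 0 < lam) (he : 0 < e)
    (hK : 1 ≤ K) (hκ : 0 < κ) (hμ : 0 < μ) (hMm : 0 ≤ Mm) (σ : Equiv.Perm (Fin 4))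
    (hΛ : Λ ≤ L) (hR : Rgn (gr 7 s) gd Λ x ud) {P GP D G1 : ℤ → ℝ}
    (hB : Brs 7 s (lc σ.symm 0) Λ x (Mm * cd (gr 7 s) Λ x) P)
    (hP : ∀ z ∈ (gr 7 s).cube Λ x, P z = GP z + D z) (hu1 : Un (U (σ.symm 0)) C ud GP)
    (hG : En (gr 7 s) ud GP C) (hD : En (gr 7 s) ud D (C * e0))
    (hu2 : Un (U (σ.symm 1)) C ud G1) (hG1 : En (gr 7 s) ud G1 C) {t : ℕ → ℤ → ℕ}
    {W : Fin 2 → ℕ → ℤ → ℝ} (hW : Fam2 (gr 7 s) ud Λ t W e K) :
    T4 (nv.toNV σ) ud (st P) (st G1) (mv t (W 0)) (mv t (W 1)) ≤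
      (cM + restN CP C e0 lam e K κ μ Mm τ) * cd (gr 7 s) Λ x := by
  have hcd := cd_pos (gr 7 s) Λ x
  set eP : ℝ := 2 * (C + C * e0) with heP'
  have heP : 0 < eP := by positivity
  have hPe : En (gr 7 s) ud P eP := en_sum hR hP hG hD
  have hT0 : 0 ≤ tinyN κ μ Mm := by unfold tinyN; positivity
  obtain ⟨B, cf, E, v, F, hd⟩ := pdec_of_brs hB (csz_lc _ 0) (lc_ne _ 0).1 (lc_ne _ 0).2.1
    (lc_ne _ 0).2.2 hκ hμ
  -- the accumulated tiny part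
  have h1 := T4_exc (Fb := F) hCP hb σ hR hlam heP hC hPe hG1 he hK hW
  have htot : ∑ l ∈ range (Λ + 1), ∑ z ∈ (gr 7 s).cube Λ x,
      (if ud l z then √(en (gr 7 s) (F l) l z) else 0) ≤ tinyN κ μ Mm * cd (gr 7 s) Λ x := by
    refine le_trans (sum_le_sum fun i _ => sum_le_sum fun z _ => ?_) (hd.tot.trans (le_of_eq ?_))
    · split_ifs
      · exact le_rfl
      · exact Real.sqrt_nonneg _
    · unfold tinyN; ring
  set ud1 : ℕ → ℤ → Prop := An ud fun k y => ¬ Ex (gr 7 s) F Λ lam k y with hud1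
  have hR1 : Rgn (gr 7 s) gd Λ x ud1 := rgn_nex hR
  have hs1 : ∀ k y, ud1 k y → ud k y := fun k y h => h.1
  have hsp1 := T4_split (nv := nv.toNV σ) (ud := ud) (Ex (gr 7 s) F Λ lam) (st P) (st G1)
    (mv t (W 0)) (mv t (W 1))
  -- the local masses
  obtain ⟨Q, T, hR2, hl, hQ, hTc, hTs⟩ := hX σ.symm Λ x gd ud1 hR1 B cf hd.bok hd.mass
  set ud2 : ℕ → ℤ → Prop := An ud1 fun k y => ¬ Q k y with hud2
  have hs2 : ∀ k y, ud2 k y → ud k y := fun k y h => h.1.1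
  have hsp2 := T4_split (nv := nv.toNV σ) (ud := ud1) Q (st P) (st G1)
    (mv t (W 0)) (mv t (W 1))
  have h2 := T4_tops (nv := nv.toNV σ) hR1 hQ hTc (fun i hi z _ hu _ =>
    T4_bw hCP hb σ hR1 heP hC he hK (en_mono hPe hs1) (en_mono hG1 hs1) (fam2_mono hW hs1) hi hu)
  -- the rest
  have h3 := T4_pdec (ud := ud2) hd σ hCP hb hR2 heP hC he hK (en_mono hPe hs2)
    (en_mono hG1 hs2) (fam2_mono hW hs2) (fun _ _ => False)
  have h4 : T4 (nv.toNV σ) (An ud2 fun _ _ => False) (st P) (st G1) (mv t (W 0)) (mv t (W 1)) =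
      0 := by
    unfold T4 An
    exact sum_eq_zero fun N _ => if_neg fun h => h.2
  have h5 : T4 (nv.toNV σ) (Gd s Λ x ud2 fun _ _ => False) (mainF (lc σ.symm 0) μ B cf E v)
      (st G1) (mv t (W 0)) (mv t (W 1)) ≤ cM * cd (gr 7 s) Λ x := by
    by_cases htop : ud2 Λ x
    · have h6 := hM σ Λ x ud2 hΛ hR2 htop P GP D G1 B cf E v F hd hP (un_mono hu1 hs2)
        (en_mono hG hs2) (en_mono hD hs2) (un_mono hu2 hs2) (en_mono hG1 hs2)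
        (fun k y hu => en_le_of_nex hu.1.2 le_rfl (hR2.bel k y hu).1)
        (fun k y hu => hl k y hu.1 hu.2) t W (fam2_mono hW hs2)
      refine le_trans ?_ h6
      exact T1_mono (s := sl1 (nv.toNV σ) (st G1) (mv t (W 0)) (mv t (W 1))) _
        fun k y hy => ⟨hy.1, hy.2.1⟩
    · have h6 : T4 (nv.toNV σ) (Gd s Λ x ud2 fun _ _ => False)
          (mainF (lc σ.symm 0) μ B cf E v) (st G1) (mv t (W 0)) (mv t (W 1)) = 0 := by
        unfold T4 Gd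
        exact sum_eq_zero fun N _ => if_neg fun h => rgn_empty hR2 htop _ _ h.1
      rw [h6]; positivity
  have e1 : 362 * 10 ^ 3 * CP * (√eP * √C * (e * K)) * (√lam)⁻¹ *
      ∑ l ∈ range (Λ + 1), ∑ z ∈ (gr 7 s).cube Λ x,
        (if ud l z then √(en (gr 7 s) (F l) l z) else 0) ≤
      362 * 10 ^ 3 * CP * (√eP * √C * (e * K)) * (√lam)⁻¹ *
        (tinyN κ μ Mm * cd (gr 7 s) Λ x) :=
    mul_le_mul_of_nonneg_left htot (by positivity)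
  have e2 : 362 * 10 ^ 3 * CP * (√eP * √C * (e * K)) *
      ∑ i ∈ range (Λ + 1), ∑ z ∈ (gr 7 s).cube Λ x, (if ud1 i z ∧ T i z then (1 : ℝ) else 0) ≤
      362 * 10 ^ 3 * CP * (√eP * √C * (e * K)) * (τ * cd (gr 7 s) Λ x) :=
    mul_le_mul_of_nonneg_left hTs (by positivity)
  have e3 : CP * √C * e * (64 * (68 * 10 ^ 4) * K * (6 * κ + 8 / (κ ^ 12 * √μ)) *
      (Mm * cd (gr 7 s) Λ x) + 68 ^ 4 / 32 * √eP * cd (gr 7 s) Λ x) =
      CP * √C * e * (4 * (68 * 10 ^ 4) * K * tinyN κ μ Mm + 68 ^ 4 / 32 * √eP) *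
        cd (gr 7 s) Λ x := by
    unfold tinyN; ring
  rw [h4, e3] at h3
  have e4 : (cM + restN CP C e0 lam e K κ μ Mm τ) * cd (gr 7 s) Λ x =
      cM * cd (gr 7 s) Λ x +
      362 * 10 ^ 3 * CP * (√eP * √C * (e * K)) * (√lam)⁻¹ * (tinyN κ μ Mm * cd (gr 7 s) Λ x) +
      362 * 10 ^ 3 * CP * (√eP * √C * (e * K)) * (τ * cd (gr 7 s) Λ x) +
      CP * √C * e * (4 * (68 * 10 ^ 4) * K * tinyN κ μ Mm + 68 ^ 4 / 32 * √eP) *
        cd (gr 7 s) Λ x := by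
    unfold restN; rw [← heP']; ring
  rw [e4, hsp1]
  have e5 := h1.trans e1
  have e6 := h2.trans e2
  linarith

/-- **`MainEst` and `ExM` imply `EndStm`.** -/
theorem endStm_of {nv : N4 (gr 7 s) α} {L : ℕ} {S S' : Fin 4 → CSys (gr 7 s) ι}
    {w : ∀ m, LW (S m)} {w' : ∀ m, LW (S' m)} {U : Fin 4 → CSys (gr 7 s) κι}
    {lmf : Pt → Finset Bi → (Bi → ℝ) → ℕ → ℤ → ℝ} {M Ma C e0 lam m1 e K κ μ Mm cM CP τ c : ℝ}
    (hw : ∀ i Λ x P, Λ ≤ L → AtS (w i) L Λ x M P → Brs 7 s (fc i) Λ x (Ma * cd (gr 7 s) Λ x) P)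
    (hw' : ∀ i Λ x P, Λ ≤ L → AtS (w' i) L Λ x M P →
      Brs 7 s (fc i) Λ x (Ma * cd (gr 7 s) Λ x) P)
    (hM : MainEst nv gd L U lmf C e0 lam m1 e K κ μ Mm cM)
    (hX : ∀ σ : Equiv.Perm (Fin 4), ExM s (lc σ 0) lmf m1 Mm τ) (hcM : 0 ≤ cM) (hCP : 0 ≤ CP)
    (hb : BoxHyp nv gd CP) (hC : 0 < C) (he0 : 0 ≤ e0) (hlam : 0 < lam) (he : 0 < e)
    (hK : 1 ≤ K) (hκ : 0 < κ) (hμ : 0 < μ) (hMm : 0 ≤ Mm) (hMa : 2 * Ma ≤ Mm)
    (hc : cM + restN CP C e0 lam e K κ μ Mm τ ≤ c) :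
    EndStm nv gd L w w' U M C e0 e K c := by
  intro σ Λ x ud hΛ hR htop P G1 hin t W hW
  obtain ⟨P1, P2, hA1, hA2, hP12⟩ := hin.at_
  obtain ⟨GP, D, hP, hu1, hG, hD⟩ := hin.gp
  have hcd := cd_pos (gr 7 s) Λ x
  have hB : Brs 7 s (fc (σ.symm 0)) Λ x (Mm * cd (gr 7 s) Λ x) P := by
    have k1 := hw _ Λ x P1 hΛ hA1
    have k2 := (hw' _ Λ x P2 hΛ hA2).smul (-1)
    refine ((k1.add k2).mono ?_).congr fun y hy => ?_
    · rw [abs_neg, abs_one, one_mul]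
      nlinarith
    · rw [hP12 y hy]; ring
  have h1 := end_one hM hX hcM hCP hb hC he0 hlam he hK hκ hμ hMm σ hΛ hR (brs_lc σ.symm 0 hB) hP hu1 hG
    hD
    hin.unG hin.enG hW
  exact h1.trans (mul_le_mul_of_nonneg_right hc hcd.le)

end

end Vale.Agent.P141.H998
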