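import Vale.Agent.P141.H935.WinSum

/-!
# P141, line END, module (E-TS): the tiny slot and the exceptional nodes

One-slot node families `Sl` (any slot of a four-linear node family with the other three slots
fixed families).  `BB s gd ud b`: the height free static bound: on every region inside `ud`, a
static function with local energies at most `E` on the used cells has total at most `b * √E` times
the number of points of the top cell.

* `ts1`: a static function whose energy is known ON THE TOP CELL ONLY has total at most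
  `4 * b * √E * cd` (running maximum of the local energies, classes `4 ^ c`).
* `ts2`: a slot which is the sum of the increments `F i` born at the scales `i ≥ k` has total at
  most `4 * b` times the L1 sum of the local L2 averages of the increments.
* `ts3`: nodes below exceptional tops.
-/

namespace Vale.Agent.P141.H998

open Finset
open Vale.Agent.P141.H315 Vale.Agent.P141.H347 Vale.Agent.P141.H8 Vale.Agent.P141.H935

noncomputable section

open scoped Classical

/-- one-slot node values: the node `N` lives on the cell `(sc N, pt N)` -/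
structure Sl (X α : Type*) where
  /-- the nodes -/
  nd : Finset α
  /-- the scale of a node -/
  sc : α → ℕ
  /-- the cell of a node -/
  pt : α → X
  /-- the value of a node -/
  v : α → (X → ℝ) → ℝ

variable {X α : Type*} {g : Grid X}

/-- additive node values -/
def Sl.Ad (s : Sl X α) : Prop := ∀ N a a', s.v N (a + a') = s.v N a + s.v N a'

/-- the total of a region -/
def T1 (s : Sl X α) (ud : ℕ → X → Prop) (A : ℕ → X → ℝ) : ℝ :=
  ∑ N ∈ s.nd, if ud (s.sc N) (s.pt N) then |s.v N (A (s.sc N))| else 0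

/-- slot 1 of a four-linear node family -/
def sl1 (nv : NV g α) (B C D : ℕ → X → ℝ) : Sl X α :=
  ⟨nv.nd, nv.sc, nv.pt, fun N a => nv.v N a (B (nv.sc N)) (C (nv.sc N)) (D (nv.sc N))⟩

/-- slot 2 of a four-linear node family -/
def sl2 (nv : NV g α) (A C D : ℕ → X → ℝ) : Sl X α :=
  ⟨nv.nd, nv.sc, nv.pt, fun N a => nv.v N (A (nv.sc N)) a (C (nv.sc N)) (D (nv.sc N))⟩

/-- slot 3 of a four-linear node family -/
def sl3 (nv : NV g α) (A B D : ℕ → X → ℝ) : Sl X α :=
  ⟨nv.nd, nv.sc, nv.pt, fun N a => nv.v N (A (nv.sc N)) (B (nv.sc N)) a (D (nv.sc N))⟩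

/-- slot 4 of a four-linear node family -/
def sl4 (nv : NV g α) (A B C : ℕ → X → ℝ) : Sl X α :=
  ⟨nv.nd, nv.sc, nv.pt, fun N a => nv.v N (A (nv.sc N)) (B (nv.sc N)) (C (nv.sc N)) a⟩

theorem T4_eq1 (nv : NV g α) (ud : ℕ → X → Prop) (A B C D : ℕ → X → ℝ) :
    T4 nv ud A B C D = T1 (sl1 nv B C D) ud A := rfl

theorem T4_eq2 (nv : NV g α) (ud : ℕ → X → Prop) (A B C D : ℕ → X → ℝ) :
    T4 nv ud A B C D = T1 (sl2 nv A C D) ud B := rfl

theorem T4_eq3 (nv : NV g α) (ud : ℕ → X → Prop) (A B C D : ℕ → X → ℝ) :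
    T4 nv ud A B C D = T1 (sl3 nv A B D) ud C := rfl

theorem T4_eq4 (nv : NV g α) (ud : ℕ → X → Prop) (A B C D : ℕ → X → ℝ) :
    T4 nv ud A B C D = T1 (sl4 nv A B C) ud D := rfl

theorem ad1 (nv : NV g α) (B C D : ℕ → X → ℝ) : (sl1 nv B C D).Ad := fun _ _ _ => nv.add1 _ _ _ _ _ _

theorem ad3 (nv : NV g α) (A B D : ℕ → X → ℝ) : (sl3 nv A B D).Ad := fun _ _ _ => nv.add3 _ _ _ _ _ _

theorem ad4 (nv : NV g α) (A B C : ℕ → X → ℝ) : (sl4 nv A B C).Ad := fun _ _ _ => nv.add4 _ _ _ _ _ _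

/-- the height free static bound for the regions inside `ud` -/
def BB (g : Grid X) (s : Sl X α) (gd ud : ℕ → X → Prop) (b : ℝ) : Prop :=
  ∀ L x ud', Rgn g gd L x ud' → (∀ k y, ud' k y → ud k y) → ∀ (F : X → ℝ) (E : ℝ), 0 < E →
    En g ud' F E → T1 s ud' (st F) ≤ b * √E * cd g L x

variable {s : Sl X α} {gd ud : ℕ → X → Prop} {L : ℕ} {x : X}

theorem T1_nonneg (A : ℕ → X → ℝ) : 0 ≤ T1 s ud A :=
  sum_nonneg fun N _ => by split_ifs; exacts [abs_nonneg _, le_rfl]

theorem BB.mono {ud' : ℕ → X → Prop} {b : ℝ} (h : BB g s gd ud b)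
    (hs : ∀ k y, ud' k y → ud k y) : BB g s gd ud' b :=
  fun L x ud'' h1 h2 => h L x ud'' h1 fun k y hy => hs k y (h2 k y hy)

theorem T1_mono {ud' : ℕ → X → Prop} (A : ℕ → X → ℝ) (hs : ∀ k y, ud' k y → ud k y) :
    T1 s ud' A ≤ T1 s ud A := by
  unfold T1
  refine sum_le_sum fun N _ => ?_
  by_cases h : ud' (s.sc N) (s.pt N)
  · rw [if_pos h, if_pos (hs _ _ h)]
  · rw [if_neg h]; split_ifs; exacts [abs_nonneg _, le_rfl]

theorem cd_eq {i : ℕ} {y z : X} (h : z ∈ g.cube i y) : cd g i z = cd g i y := by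
  unfold cd; rw [g.eq_of_mem i y z h]

/-- sum over the points of a cell of a local average = sum over the points -/
theorem sum_swap (g : Grid X) {i L : ℕ} (hi : i ≤ L) (x : X) (f h : X → ℝ)
    (hh : ∀ y z, z ∈ g.cube i y → h z = h y) :
    ∑ z ∈ g.cube L x, (∑ y ∈ g.cube i z, f y) / cd g i z * h z = ∑ y ∈ g.cube L x, f y * h y := by
  have e1 : ∀ z ∈ g.cube L x, (∑ y ∈ g.cube i z, f y) / cd g i z * h z =
      ∑ y ∈ g.cube L x, if y ∈ g.cube i z then f y / cd g i z * h z else 0 := by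
    intro z hz
    rw [sum_ite_mem, inter_eq_right.2 (g.cube_subset hi hz), sum_div, sum_mul]
  rw [sum_congr rfl e1, sum_comm]
  refine sum_congr rfl fun y hy => ?_
  have e2 : ∀ z ∈ g.cube L x, (if y ∈ g.cube i z then f y / cd g i z * h z else 0) =
      if z ∈ g.cube i y then f y / cd g i y * h y else 0 := by
    intro z _
    by_cases hz : z ∈ g.cube i y
    · rw [if_pos (mem_cube_comm hz), if_pos hz, cd_eq hz, hh y z hz]
    · rw [if_neg fun h4 => hz (mem_cube_comm h4), if_neg hz]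
  rw [sum_congr rfl e2, sum_ite_mem, inter_eq_right.2 (g.cube_subset hi hy), sum_const,
    nsmul_eq_mul]
  have hc : (0 : ℝ) < cd g i y := cd_pos g i y
  have hc' : ((g.cube i y).card : ℝ) = cd g i y := rfl
  rw [hc']
  field_simp

/-- the cells of the scale `i`: every used cell of a scale at most `i` lies in one of them -/
def Bw (g : Grid X) (ud : ℕ → X → Prop) (i : ℕ) (z : X) : ℕ → X → Prop :=
  fun k y => ud k y ∧ k ≤ i ∧ y ∈ g.cube i z

theorem rgn_bw (h : Rgn g gd L x ud) {i : ℕ} (hi : i ≤ L) (z : X) :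
    Rgn g gd i z (Bw g ud i z) where
  const k y y' hy' := by
    unfold Bw
    constructor
    · rintro ⟨h1, h2, h3⟩
      have h5 : y ∈ g.cube k y' := mem_cube_comm hy'
      exact ⟨(h.const k y y' hy').1 h1, h2, g.cube_subset h2 h3 h5⟩
    · rintro ⟨h1, h2, h3⟩
      exact ⟨(h.const k y y' hy').2 h1, h2, g.cube_subset h2 h3 hy'⟩
  up k hk y := by
    rintro ⟨h1, h2, h3⟩
    exact ⟨h.up k (by omega) y h1, hk, h3⟩
  bel k y := fun ⟨_, h2, h3⟩ => ⟨h2, h3⟩
  sub k y := fun ⟨h1, _, _⟩ => h.sub k y h1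

/-- the used cells of the scales at most `i` -/
def Lo (ud : ℕ → X → Prop) (i : ℕ) : ℕ → X → Prop := fun k y => ud k y ∧ k ≤ i

/-- the used cells with the property `Q` -/
def An (ud Q : ℕ → X → Prop) : ℕ → X → Prop := fun k y => ud k y ∧ Q k y

theorem sum_bw_one (h : Rgn g gd L x ud) {i : ℕ} (hi : i ≤ L) (k : ℕ) (y : X) :
    ∑ z ∈ g.cube L x, (if ud i z then
      (cd g i z)⁻¹ * (if Bw g ud i z k y then (1 : ℝ) else 0) else 0) =
      if Lo ud i k y then 1 else 0 := by
  by_cases hu : Lo ud i k y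
  · rw [if_pos hu]
    obtain ⟨hk, hy⟩ := h.bel k y hu.1
    have hud0 : ud i y := h.up' hu.2 hi hu.1
    have e1 : ∀ z ∈ g.cube L x, (if ud i z then
        (cd g i z)⁻¹ * (if Bw g ud i z k y then (1 : ℝ) else 0) else 0) =
        if z ∈ g.cube i y then (cd g i y)⁻¹ else 0 := by
      intro z _
      by_cases hz : z ∈ g.cube i y
      · have h1 : ud i z := (h.const i y z hz).2 hud0
        have h3 : Bw g ud i z k y := ⟨hu.1, hu.2, mem_cube_comm hz⟩
        rw [if_pos h1, if_pos h3, if_pos hz, mul_one, cd_eq hz]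
      · have h3 : ¬ Bw g ud i z k y := fun h4 => hz (mem_cube_comm h4.2.2)
        rw [if_neg h3, if_neg hz, mul_zero, ite_self]
    rw [sum_congr rfl e1, sum_ite_mem, inter_eq_right.2 (g.cube_subset hi hy), sum_const,
      nsmul_eq_mul]
    exact mul_inv_cancel₀ (cd_pos g i y).ne'
  · rw [if_neg hu]
    refine sum_eq_zero fun z _ => ?_
    have h3 : ¬ Bw g ud i z k y := fun h4 => hu ⟨h4.1, h4.2.1⟩
    rw [if_neg h3, mul_zero, ite_self]

/-- the total below the scale `i`, cell by cell -/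
theorem T1_cells (h : Rgn g gd L x ud) {i : ℕ} (hi : i ≤ L) (A : ℕ → X → ℝ) :
    T1 s (Lo ud i) A =
      ∑ z ∈ g.cube L x, if ud i z then (cd g i z)⁻¹ * T1 s (Bw g ud i z) A else 0 := by
  have e1 : ∀ N ∈ s.nd, (if Lo ud i (s.sc N) (s.pt N) then |s.v N (A (s.sc N))| else 0) =
      ∑ z ∈ g.cube L x, (if ud i z then
        (cd g i z)⁻¹ * (if Bw g ud i z (s.sc N) (s.pt N) then |s.v N (A (s.sc N))| else 0)
          else 0) := by
    intro N _
    have e2 : (if Lo ud i (s.sc N) (s.pt N) then |s.v N (A (s.sc N))| else 0) =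
        (if Lo ud i (s.sc N) (s.pt N) then (1 : ℝ) else 0) * |s.v N (A (s.sc N))| := by
      split_ifs <;> simp
    rw [e2, ← sum_bw_one h hi, sum_mul]
    refine sum_congr rfl fun z _ => ?_
    split_ifs <;> simp
  unfold T1
  rw [sum_congr rfl e1, sum_comm]
  refine sum_congr rfl fun z _ => ?_
  split_ifs
  · rw [mul_sum]
  · exact sum_const_zero

/-! ## The classes of the running maximum -/

/-- local energy average -/
def en (g : Grid X) (F : X → ℝ) (i : ℕ) (y : X) : ℝ := dot (g.cube i y) F F / cd g i y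

/-- the class: the running maximum from the top is at most `4 ^ (c + 1) * E` -/
def cl (g : Grid X) (F : X → ℝ) (E : ℝ) (L : ℕ) (k : ℕ) (y : X) : ℕ :=
  sInf {c : ℕ | ∀ i, k ≤ i → i ≤ L → en g F i y ≤ 4 ^ (c + 1) * E}

variable {F : X → ℝ} {E : ℝ}

theorem en_nonneg (i : ℕ) (y : X) : 0 ≤ en g F i y :=
  div_nonneg (dot_self_nonneg _ _) (cd_pos g i y).le

theorem en_const {i : ℕ} {y z : X} (h : z ∈ g.cube i y) : en g F i z = en g F i y := by
  unfold en; rw [cd_eq h, g.eq_of_mem i y z h]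

theorem cl_ne (hE : 0 < E) (k : ℕ) (y : X) :
    {c : ℕ | ∀ i, k ≤ i → i ≤ L → en g F i y ≤ 4 ^ (c + 1) * E}.Nonempty := by
  obtain ⟨c, hc⟩ := pow_unbounded_of_one_lt ((∑ i ∈ range (L + 1), en g F i y) / E)
    (by norm_num : (1 : ℝ) < 4)
  refine ⟨c, fun i _ hi => ?_⟩
  have h1 : en g F i y ≤ ∑ i ∈ range (L + 1), en g F i y :=
    single_le_sum (f := fun i => en g F i y) (fun i _ => en_nonneg i y)
      (mem_range.2 (by omega))
  have h2 : (∑ i ∈ range (L + 1), en g F i y) ≤ 4 ^ c * E := by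
    rw [div_lt_iff₀ hE] at hc; exact hc.le
  have h3 : (4 : ℝ) ^ c * E ≤ 4 ^ (c + 1) * E := by
    refine mul_le_mul_of_nonneg_right ?_ hE.le
    exact pow_le_pow_right₀ (by norm_num) (by omega)
  exact h1.trans (h2.trans h3)

theorem en_le_cl (hE : 0 < E) {k i : ℕ} (hk : k ≤ i) (hi : i ≤ L) (y : X) :
    en g F i y ≤ 4 ^ (cl g F E L k y + 1) * E :=
  Nat.sInf_mem (cl_ne (L := L) hE k y) i hk hi

theorem cl_anti (hE : 0 < E) {k k' : ℕ} (h : k ≤ k') (y : X) :
    cl g F E L k' y ≤ cl g F E L k y :=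
  Nat.sInf_le fun _ hi hL => en_le_cl hE (h.trans hi) hL y

theorem cl_const {k : ℕ} {y z : X} (h : z ∈ g.cube k y) :
    cl g F E L k z = cl g F E L k y := by
  unfold cl
  congr 1
  ext c
  simp only [Set.mem_setOf_eq]
  refine forall_congr' fun i => forall_congr' fun hk => forall_congr' fun _ => ?_
  rw [en_const (g.cube_subset hk (g.mem i y) (show z ∈ g.cube k y from h))]

/-- the top of the class -/
def tc (g : Grid X) (F : X → ℝ) (E : ℝ) (L : ℕ) (k : ℕ) (y : X) : ℕ :=
  Nat.findGreatest (fun i => k ≤ i ∧ cl g F E L i y = cl g F E L k y) L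

theorem tc_spec {k : ℕ} (hk : k ≤ L) (y : X) :
    k ≤ tc g F E L k y ∧ cl g F E L (tc g F E L k y) y = cl g F E L k y :=
  Nat.findGreatest_spec (P := fun i => k ≤ i ∧ cl g F E L i y = cl g F E L k y) hk ⟨le_rfl, rfl⟩

theorem tc_le (k : ℕ) (y : X) : tc g F E L k y ≤ L := Nat.findGreatest_le L

theorem le_tc {k i : ℕ} (hk : k ≤ i) (hi : i ≤ L) (y : X)
    (h : cl g F E L i y = cl g F E L k y) : i ≤ tc g F E L k y :=
  Nat.le_findGreatest hi ⟨hk, h⟩

theorem tc_btw (hE : 0 < E) {k i : ℕ} (hk : k ≤ L) (y : X) (h1 : k ≤ i)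
    (h2 : i ≤ tc g F E L k y) : tc g F E L i y = tc g F E L k y := by
  have hiL : i ≤ L := h2.trans (tc_le k y)
  obtain ⟨h3, h4⟩ := tc_spec (F := F) (E := E) (g := g) hk y
  obtain ⟨h5, h6⟩ := tc_spec (F := F) (E := E) (g := g) hiL y
  have h7 : cl g F E L i y = cl g F E L k y := by
    refine le_antisymm (cl_anti hE h1 y) ?_
    rw [← h4]
    exact cl_anti hE h2 y
  refine le_antisymm ?_ ?_
  · exact le_tc (h1.trans h5) (tc_le i y) y (h6.trans h7)
  · exact le_tc h2 (tc_le k y) y (h4.trans h7.symm)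

theorem tc_const {k : ℕ} (hk : k ≤ L) {y z : X} (h : z ∈ g.cube k y) :
    tc g F E L k z = tc g F E L k y := by
  have key : ∀ y z : X, z ∈ g.cube k y → tc g F E L k z ≤ tc g F E L k y := by
    intro y z h
    obtain ⟨h5, h6⟩ := tc_spec (F := F) (E := E) (g := g) hk z
    have h7 : z ∈ g.cube (tc g F E L k z) y := g.cube_subset h5 (g.mem _ y) h
    refine le_tc h5 (tc_le k z) y ?_
    rw [← cl_const h7, h6, cl_const h]
  exact le_antisymm (key y z h) (key z y (mem_cube_comm h))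

theorem lab_tc (hE : 0 < E) : Lab g L (tc g F E L) where
  const _ hk _ _ h := tc_const hk h
  ge _ hk y := (tc_spec hk y).1
  le k _ y := tc_le k y
  btw _ hk y _ h1 h2 := tc_btw hE hk y h1 h2

/-- the weight of the class -/
def wt (g : Grid X) (F : X → ℝ) (E : ℝ) (L : ℕ) (k : ℕ) (y : X) : ℝ := (1 / 2) ^ cl g F E L k y

theorem wt_nonneg (k : ℕ) (y : X) : 0 ≤ wt g F E L k y := by unfold wt; positivity

theorem wt_le_one (k : ℕ) (y : X) : wt g F E L k y ≤ 1 :=
  pow_le_one₀ (by norm_num) (by norm_num)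

theorem wt_mono (hE : 0 < E) {k k' : ℕ} (h : k ≤ k') (y : X) :
    wt g F E L k y ≤ wt g F E L k' y :=
  pow_le_pow_of_le_one (by norm_num) (by norm_num) (cl_anti hE h y)

theorem wt_const {k : ℕ} {y z : X} (h : z ∈ g.cube k y) : wt g F E L k z = wt g F E L k y := by
  unfold wt; rw [cl_const h]

/-- a top below the scale `L` has a large local energy -/
theorem top_en (hE : 0 < E) {i : ℕ} (hi : i < L) {z : X} (ht : tc g F E L i z = i) :
    2 * 2 ^ cl g F E L i z * E ≤ 2 * en g F i z * (wt g F E L (i + 1) z - wt g F E L i z) := by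
  have h0 : cl g F E L (i + 1) z ≤ cl g F E L i z := cl_anti hE (by omega) z
  have h1 : cl g F E L (i + 1) z < cl g F E L i z := by
    refine lt_of_le_of_ne h0 fun h2 => ?_
    have h3 := le_tc (F := F) (E := E) (g := g) (Nat.le_succ i) (by omega : i + 1 ≤ L) z h2
    omega
  obtain ⟨c, hc⟩ : ∃ c, cl g F E L i z = c + 1 := ⟨cl g F E L i z - 1, by omega⟩
  have h4 : ¬ ∀ j, i ≤ j → j ≤ L → en g F j z ≤ 4 ^ (c + 1) * E := by
    intro h5
    have h6 : cl g F E L i z ≤ c := Nat.sInf_le h5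
    omega
  have h7 : 4 ^ (c + 1) * E < en g F i z := by
    by_contra h8
    push Not at h8
    refine h4 fun j hj hjL => ?_
    rcases Nat.eq_or_lt_of_le hj with h9 | h9
    · rw [← h9]; exact h8
    · refine (en_le_cl hE (by omega : i + 1 ≤ j) hjL z).trans ?_
      refine mul_le_mul_of_nonneg_right ?_ hE.le
      exact pow_le_pow_right₀ (by norm_num) (by omega)
  have h10 : (1 / 2 : ℝ) ^ c ≤ wt g F E L (i + 1) z :=
    pow_le_pow_of_le_one (by norm_num) (by norm_num) (by omega)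
  have h11 : wt g F E L i z = (1 / 2) ^ c * (1 / 2) := by unfold wt; rw [hc, pow_succ]
  have h12 : (1 / 2 : ℝ) ^ c * (1 / 2) ≤ wt g F E L (i + 1) z - wt g F E L i z := by
    rw [h11]; linarith
  have h13 : (2 : ℝ) ^ (c + 1) = 4 ^ (c + 1) * ((1 / 2) ^ c * (1 / 2)) := by
    rw [← pow_succ, ← mul_pow]; norm_num
  rw [hc]
  calc 2 * 2 ^ (c + 1) * E = 2 * (4 ^ (c + 1) * E) * ((1 / 2) ^ c * (1 / 2)) := by rw [h13]; ring
    _ ≤ 2 * en g F i z * ((1 / 2) ^ c * (1 / 2)) := by
        refine mul_le_mul_of_nonneg_right ?_ (by positivity)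
        linarith
    _ ≤ _ := by
        refine mul_le_mul_of_nonneg_left h12 ?_
        have := en_nonneg (g := g) (F := F) i z
        positivity

theorem sqrt_cl (c : ℕ) : √(4 ^ (c + 1) * E) = 2 ^ (c + 1) * √E := by
  rw [Real.sqrt_mul (by positivity), show (4 : ℝ) ^ (c + 1) = (2 ^ (c + 1)) ^ 2 by
    rw [← pow_mul, mul_comm (c + 1) 2, pow_mul]; norm_num, Real.sqrt_sq (by positivity)]

/-- **(TS1)** a static function with its energy known on the top cell only -/
theorem ts1 {b : ℝ} (hb : 0 ≤ b) (hB : BB g s gd ud b) (h : Rgn g gd L x ud) (hE : 0 < E)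
    (hF : dot (g.cube L x) F F ≤ E * cd g L x) : T1 s ud (st F) ≤ 4 * b * √E * cd g L x := by
  have hl : Lab g L (tc g F E L) := lab_tc hE
  have hw : T1 s ud (st F) = ∑ i ∈ range (L + 1), ∑ z ∈ g.cube L x,
      (if ud i z ∧ tc g F E L i z = i then
        (cd g i z)⁻¹ * T1 s (Wr g ud (tc g F E L) i z) (st F) else 0) :=
    sum_items h hl s.nd s.sc s.pt _
  -- one window
  have hone : ∀ i ≤ L, ∀ z, ud i z → tc g F E L i z = i →
      (cd g i z)⁻¹ * T1 s (Wr g ud (tc g F E L) i z) (st F) ≤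
        b * √E * (2 * 2 ^ cl g F E L i z) := by
    intro i hi z hu ht
    have hc := cd_pos g i z
    have h1 : En g (Wr g ud (tc g F E L) i z) F (4 ^ (cl g F E L i z + 1) * E) := by
      rintro k y ⟨h2, h3, h4, h5⟩
      have h6 : cl g F E L k y = cl g F E L i z := by
        have h7 := (tc_spec (F := F) (E := E) (g := g) (h3.trans hi) y).2
        rw [h5, cl_const h4] at h7
        exact h7.symm
      have h8 := en_le_cl (F := F) (L := L) hE le_rfl (h3.trans hi) (g := g) y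
      rw [h6] at h8
      unfold en at h8
      rwa [div_le_iff₀ (cd_pos g k y)] at h8
    have h2 := hB i z _ (h.win hl hi z) (fun k y hy => hy.1) F _ (by positivity) h1
    rw [sqrt_cl] at h2
    rw [inv_mul_le_iff₀ hc]
    refine h2.trans (le_of_eq ?_)
    rw [pow_succ]; ring
  -- the scales below `L`
  have hlow : ∀ i < L, ∑ z ∈ g.cube L x, (if ud i z ∧ tc g F E L i z = i then
      (cd g i z)⁻¹ * T1 s (Wr g ud (tc g F E L) i z) (st F) else 0) ≤
      b * √E * (2 / E) * ∑ y ∈ g.cube L x,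
        F y * F y * (wt g F E L (i + 1) y - wt g F E L i y) := by
    intro i hi
    rw [← sum_swap g hi.le x (fun y => F y * F y)
      (fun y => wt g F E L (i + 1) y - wt g F E L i y) (fun y z hz => by
        rw [wt_const hz, wt_const (g.cube_subset (Nat.le_succ i) (g.mem (i + 1) y) hz)]), mul_sum]
    refine sum_le_sum fun z _ => ?_
    have h3 : 0 ≤ wt g F E L (i + 1) z - wt g F E L i z :=
      sub_nonneg.2 (wt_mono hE (Nat.le_succ i) z)
    have h4 := en_nonneg (g := g) (F := F) i z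
    have h5 : (∑ y ∈ g.cube i z, F y * F y) / cd g i z = en g F i z := rfl
    rw [h5]
    split_ifs with h6
    · refine (hone i hi.le z h6.1 h6.2).trans ?_
      have h7 := top_en hE hi h6.2
      have h8 : 2 * 2 ^ cl g F E L i z ≤
          2 / E * (en g F i z * (wt g F E L (i + 1) z - wt g F E L i z)) := by
        rw [div_mul_eq_mul_div, le_div_iff₀ hE]
        linarith
      calc b * √E * (2 * 2 ^ cl g F E L i z) ≤
          b * √E * (2 / E * (en g F i z * (wt g F E L (i + 1) z - wt g F E L i z))) :=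
            mul_le_mul_of_nonneg_left h8 (by positivity)
        _ = _ := by ring
    · positivity
  -- the top scale
  have htop : ∑ z ∈ g.cube L x, (if ud L z ∧ tc g F E L L z = L then
      (cd g L z)⁻¹ * T1 s (Wr g ud (tc g F E L) L z) (st F) else 0) ≤
      b * √E * 2 * cd g L x := by
    have h9 : ∀ z ∈ g.cube L x, (if ud L z ∧ tc g F E L L z = L then
        (cd g L z)⁻¹ * T1 s (Wr g ud (tc g F E L) L z) (st F) else 0) ≤ b * √E * 2 := by
      intro z hz
      split_ifs with h6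
      · refine (hone L le_rfl z h6.1 h6.2).trans ?_
        have h10 : cl g F E L L z = 0 := by
          refine Nat.le_zero.1 (Nat.sInf_le fun i hi hiL => ?_)
          have h11 : i = L := le_antisymm hiL hi
          subst h11
          rw [en_const hz]
          unfold en
          rw [div_le_iff₀ (cd_pos g i x)]
          have h12 := mul_pos hE (cd_pos g i x)
          have h13 : (4 : ℝ) ^ (0 + 1) * E * cd g i x = 4 * (E * cd g i x) := by ring
          rw [h13]
          linarith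
        rw [h10]; simp
      · positivity
    refine (sum_le_sum h9).trans (le_of_eq ?_)
    rw [sum_const, nsmul_eq_mul]
    unfold cd
    ring
  have hsum : ∑ i ∈ range L, ∑ y ∈ g.cube L x,
      F y * F y * (wt g F E L (i + 1) y - wt g F E L i y) ≤ E * cd g L x := by
    rw [sum_comm]
    refine le_trans (sum_le_sum fun y _ => ?_) hF
    rw [← mul_sum, sum_range_sub (fun i => wt g F E L i y)]
    have h1 := wt_nonneg (g := g) (F := F) (E := E) (L := L) 0 y
    have h2 := wt_le_one (g := g) (F := F) (E := E) (L := L) L y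
    have h3 := mul_self_nonneg (F y)
    nlinarith
  rw [hw, sum_range_succ]
  have hbe : 0 ≤ b * √E * (2 / E) := by positivity
  have h12 := sum_le_sum fun i (hi : i ∈ range L) => hlow i (mem_range.1 hi)
  rw [← mul_sum] at h12
  have h13 := mul_le_mul_of_nonneg_left hsum hbe
  have h14 : b * √E * (2 / E) * (E * cd g L x) = 2 * (b * √E * cd g L x) := by
    field_simp
  linarith

theorem ts1' {b : ℝ} (hb : 0 ≤ b) (hB : BB g s gd ud b) (h : Rgn g gd L x ud) (hE : 0 ≤ E)
    (hF : dot (g.cube L x) F F ≤ E * cd g L x) : T1 s ud (st F) ≤ 4 * b * √E * cd g L x := by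
  have hc := cd_pos g L x
  refine le_of_forall_pos_le_add fun δ hδ => ?_
  set ε : ℝ := δ / (4 * b * cd g L x + 1) with hε
  have hd : 0 < 4 * b * cd g L x + 1 := by positivity
  have hε0 : 0 < ε := by positivity
  have h1 : dot (g.cube L x) F F ≤ (E + ε ^ 2) * cd g L x := by
    refine hF.trans (mul_le_mul_of_nonneg_right ?_ hc.le)
    have := sq_nonneg ε
    linarith
  have h2 := ts1 hb hB h (by positivity : 0 < E + ε ^ 2) h1
  have h3 : √(E + ε ^ 2) ≤ √E + ε := by
    rw [Real.sqrt_le_left (by positivity)]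
    have h4 := Real.sq_sqrt hE
    nlinarith [Real.sqrt_nonneg E]
  have h5 : 4 * b * cd g L x * ε ≤ δ := by
    rw [hε, ← mul_div_assoc, div_le_iff₀ hd]
    nlinarith
  have h6 : 4 * b * √(E + ε ^ 2) * cd g L x ≤ 4 * b * (√E + ε) * cd g L x := by
    gcongr
  nlinarith

/-- the same with the local average itself -/
theorem ts1_avg {b : ℝ} (hb : 0 ≤ b) (hB : BB g s gd ud b) (h : Rgn g gd L x ud) (F : X → ℝ) :
    T1 s ud (st F) ≤ 4 * b * √(en g F L x) * cd g L x := by
  refine ts1' hb hB h (en_nonneg L x) (le_of_eq ?_)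
  unfold en
  have := cd_pos g L x
  field_simp

/-! ## The L1 sum of the increments -/

theorem Sl.v_zero (hs : s.Ad) (N : α) : s.v N 0 = 0 := by
  have h := hs N 0 0
  rw [add_zero] at h
  linarith

theorem Sl.v_sum {κ : Type*} (hs : s.Ad) (N : α) (t : Finset κ) (f : κ → X → ℝ) :
    s.v N (∑ i ∈ t, f i) = ∑ i ∈ t, s.v N (f i) := by
  induction t using Finset.induction_on with
  | empty => rw [sum_empty, sum_empty, Sl.v_zero hs]
  | insert i t hi ih => rw [sum_insert hi, sum_insert hi, hs, ih]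

theorem T1_incr (hs : s.Ad) (F : ℕ → X → ℝ) :
    T1 s ud (fun k => ∑ i ∈ Icc k L, F i) ≤
      ∑ i ∈ range (L + 1), T1 s (Lo ud i) (st (F i)) := by
  unfold T1
  rw [sum_comm]
  refine sum_le_sum fun N _ => ?_
  by_cases hu : ud (s.sc N) (s.pt N)
  · rw [if_pos hu]
    have e0 : ∀ i ∈ range (L + 1), (if Lo ud i (s.sc N) (s.pt N) then
        |s.v N (st (F i) (s.sc N))| else 0) = if s.sc N ≤ i then |s.v N (F i)| else 0 := by
      intro i _
      by_cases h1 : s.sc N ≤ i
      · rw [if_pos h1, if_pos ⟨hu, h1⟩]; rfl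
      · rw [if_neg h1, if_neg fun h2 => h1 h2.2]
    rw [sum_congr rfl e0, Sl.v_sum hs, ← sum_filter]
    refine (abs_sum_le_sum_abs _ _).trans (le_of_eq ?_)
    refine sum_congr ?_ fun i _ => rfl
    ext i
    simp only [mem_Icc, mem_filter, mem_range]
    omega
  · rw [if_neg hu]
    refine sum_nonneg fun i _ => ?_
    split_ifs; exacts [abs_nonneg _, le_rfl]

/-- **(TS2)** tiny slot = L1 sum of the increments -/
theorem ts2 {b : ℝ} (hb : 0 ≤ b) (hs : s.Ad) (hB : BB g s gd ud b) (h : Rgn g gd L x ud)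
    (F : ℕ → X → ℝ) :
    T1 s ud (fun k => ∑ i ∈ Icc k L, F i) ≤
      4 * b * ∑ i ∈ range (L + 1), ∑ z ∈ g.cube L x, if ud i z then √(en g (F i) i z) else 0 := by
  refine (T1_incr hs F).trans ?_
  rw [mul_sum]
  refine sum_le_sum fun i hi => ?_
  have hiL : i ≤ L := by have := mem_range.1 hi; omega
  rw [T1_cells h hiL, mul_sum]
  refine sum_le_sum fun z _ => ?_
  split_ifs with hu
  · have h1 := ts1_avg hb (hB.mono fun k y (hy : Bw g ud i z k y) => hy.1) (rgn_bw h hiL z) (F i)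
    rw [inv_mul_le_iff₀ (cd_pos g i z)]
    refine h1.trans (le_of_eq ?_)
    ring
  · simp

/-! ## Exceptional nodes -/

/-- nodes below exceptional cells -/
theorem T1_le_tops (h : Rgn g gd L x ud) {Q P : ℕ → X → Prop} (A : ℕ → X → ℝ)
    (hQ : ∀ k y, ud k y → Q k y → ∃ i, k ≤ i ∧ i ≤ L ∧ P i y)
    (hP : ∀ i y z, z ∈ g.cube i y → (P i z ↔ P i y)) :
    T1 s (An ud Q) A ≤
      ∑ i ∈ range (L + 1), ∑ z ∈ g.cube L x, if ud i z ∧ P i z then
        (cd g i z)⁻¹ * T1 s (Bw g ud i z) A else 0 := by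
  have e1 : ∀ i ∈ range (L + 1), (∑ z ∈ g.cube L x, if ud i z ∧ P i z then
        (cd g i z)⁻¹ * T1 s (Bw g ud i z) A else 0) =
      ∑ N ∈ s.nd, if Lo ud i (s.sc N) (s.pt N) ∧ P i (s.pt N) then
        |s.v N (A (s.sc N))| else 0 := by
    intro i hi
    have hiL : i ≤ L := by have := mem_range.1 hi; omega
    have e2 : ∀ N ∈ s.nd, (if Lo ud i (s.sc N) (s.pt N) ∧ P i (s.pt N) then
        |s.v N (A (s.sc N))| else 0) = ∑ z ∈ g.cube L x, (if ud i z ∧ P i z then
        (cd g i z)⁻¹ * (if Bw g ud i z (s.sc N) (s.pt N) then |s.v N (A (s.sc N))| else 0)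
          else 0) := by
      intro N _
      have e3 : (if Lo ud i (s.sc N) (s.pt N) ∧ P i (s.pt N) then
          |s.v N (A (s.sc N))| else 0) = (if Lo ud i (s.sc N) (s.pt N) then (1 : ℝ) else 0)
            * (if P i (s.pt N) then |s.v N (A (s.sc N))| else 0) := by
        by_cases h1 : Lo ud i (s.sc N) (s.pt N) <;>
          by_cases h3 : P i (s.pt N) <;> simp [h1, h3]
      rw [e3, ← sum_bw_one h hiL, sum_mul]
      refine sum_congr rfl fun z _ => ?_
      by_cases h4 : Bw g ud i z (s.sc N) (s.pt N)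
      · have h5 : P i (s.pt N) ↔ P i z := hP i z (s.pt N) h4.2.2
        by_cases h6 : ud i z <;> by_cases h7 : P i z <;> simp [h4, h5, h6, h7]
      · simp [h4]
    rw [sum_congr rfl e2, sum_comm]
    refine sum_congr rfl fun z _ => ?_
    unfold T1
    split_ifs
    · rw [mul_sum]
    · exact sum_const_zero.symm
  rw [sum_congr rfl e1, sum_comm]
  unfold T1
  refine sum_le_sum fun N _ => ?_
  have h0 : ∀ i ∈ range (L + 1), 0 ≤ (if Lo ud i (s.sc N) (s.pt N) ∧ P i (s.pt N) then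
      |s.v N (A (s.sc N))| else 0) := fun i _ => by split_ifs; exacts [abs_nonneg _, le_rfl]
  by_cases hu : An ud Q (s.sc N) (s.pt N)
  · rw [if_pos hu]
    obtain ⟨i, h1, h2, h3⟩ := hQ _ _ hu.1 hu.2
    refine le_trans ?_ (single_le_sum h0 (mem_range.2 (by omega : i < L + 1)))
    rw [if_pos ⟨⟨hu.1, h1⟩, h3⟩]
  · rw [if_neg hu]
    exact sum_nonneg h0

/-- **(TS3)** exceptional nodes: the packing of the exceptional cells times the total below one
cell -/
theorem ts3 {b : ℝ} (h : Rgn g gd L x ud) {Q P : ℕ → X → Prop} {A : ℕ → X → ℝ}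
    (hQ : ∀ k y, ud k y → Q k y → ∃ i, k ≤ i ∧ i ≤ L ∧ P i y)
    (hP : ∀ i y z, z ∈ g.cube i y → (P i z ↔ P i y))
    (hT : ∀ i ≤ L, ∀ z ∈ g.cube L x, ud i z → P i z → T1 s (Bw g ud i z) A ≤ b * cd g i z) :
    T1 s (An ud Q) A ≤
      b * ∑ i ∈ range (L + 1), ∑ z ∈ g.cube L x, if ud i z ∧ P i z then (1 : ℝ) else 0 := by
  refine (T1_le_tops h A hQ hP).trans ?_
  rw [mul_sum]
  refine sum_le_sum fun i hi => ?_
  rw [mul_sum]
  refine sum_le_sum fun z hz => ?_
  split_ifs with h1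
  · rw [inv_mul_le_iff₀ (cd_pos g i z), mul_one, mul_comm]
    exact hT i (by have := mem_range.1 hi; omega) z hz h1.1 h1.2
  · simp

/-- the split of a total into the exceptional nodes and the rest -/
theorem T1_split (A : ℕ → X → ℝ) (Q : ℕ → X → Prop) :
    T1 s ud A = T1 s (An ud Q) A + T1 s (An ud fun k y => ¬ Q k y) A := by
  unfold T1 An
  rw [← sum_add_distrib]
  refine sum_congr rfl fun N _ => ?_
  by_cases h1 : ud (s.sc N) (s.pt N) <;> by_cases h2 : Q (s.sc N) (s.pt N) <;> simp [h1, h2]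

theorem T1_add (hs : s.Ad) (A A' : ℕ → X → ℝ) :
    T1 s ud (fun k => A k + A' k) ≤ T1 s ud A + T1 s ud A' := by
  unfold T1
  rw [← sum_add_distrib]
  refine sum_le_sum fun N _ => ?_
  split_ifs
  · rw [hs]; exact abs_add_le _ _
  · simp

/-! ## The same in the letters of `H8/Cell` -/

variable {nv : NV g α}

/-- **(TS2)**, slot 1 -/
theorem T4_tiny1 {b : ℝ} (hb : 0 ≤ b) {B C D : ℕ → X → ℝ} (hB : BB g (sl1 nv B C D) gd ud b)
    (h : Rgn g gd L x ud) (F : ℕ → X → ℝ) :
    T4 nv ud (fun k => ∑ i ∈ Icc k L, F i) B C D ≤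
      4 * b * ∑ i ∈ range (L + 1), ∑ z ∈ g.cube L x, if ud i z then √(en g (F i) i z) else 0 :=
  ts2 hb (ad1 nv B C D) hB h F

/-- **(TS2)**, slot 3 -/
theorem T4_tiny3 {b : ℝ} (hb : 0 ≤ b) {A B D : ℕ → X → ℝ} (hB : BB g (sl3 nv A B D) gd ud b)
    (h : Rgn g gd L x ud) (F : ℕ → X → ℝ) :
    T4 nv ud A B (fun k => ∑ i ∈ Icc k L, F i) D ≤
      4 * b * ∑ i ∈ range (L + 1), ∑ z ∈ g.cube L x, if ud i z then √(en g (F i) i z) else 0 :=
  ts2 hb (ad3 nv A B D) hB h F

/-- **(TS2)**, slot 4 -/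
theorem T4_tiny4 {b : ℝ} (hb : 0 ≤ b) {A B C : ℕ → X → ℝ} (hB : BB g (sl4 nv A B C) gd ud b)
    (h : Rgn g gd L x ud) (F : ℕ → X → ℝ) :
    T4 nv ud A B C (fun k => ∑ i ∈ Icc k L, F i) ≤
      4 * b * ∑ i ∈ range (L + 1), ∑ z ∈ g.cube L x, if ud i z then √(en g (F i) i z) else 0 :=
  ts2 hb (ad4 nv A B C) hB h F

/-- **(TS3)**, all slots fixed families -/
theorem T4_tops {b : ℝ} (h : Rgn g gd L x ud) {Q P : ℕ → X → Prop} {A B C D : ℕ → X → ℝ}
    (hQ : ∀ k y, ud k y → Q k y → ∃ i, k ≤ i ∧ i ≤ L ∧ P i y)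
    (hP : ∀ i y z, z ∈ g.cube i y → (P i z ↔ P i y))
    (hT : ∀ i ≤ L, ∀ z ∈ g.cube L x, ud i z → P i z → T4 nv (Bw g ud i z) A B C D ≤ b * cd g i z) :
    T4 nv (An ud Q) A B C D ≤
      b * ∑ i ∈ range (L + 1), ∑ z ∈ g.cube L x, if ud i z ∧ P i z then (1 : ℝ) else 0 :=
  ts3 (s := sl1 nv B C D) h hQ hP hT

/-- the split of a total into the exceptional nodes and the rest -/
theorem T4_split (Q : ℕ → X → Prop) (A B C D : ℕ → X → ℝ) :
    T4 nv ud A B C D = T4 nv (An ud Q) A B C D + T4 nv (An ud fun k y => ¬ Q k y) A B C D :=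
  T1_split (s := sl1 nv B C D) A Q

end

end Vale.Agent.P141.H998
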