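import Mathlib

/-!
# A packed family in a tree: few members have many ancestors

`S` a finite family with a containment relation `le` such that the ancestors of a member form a
chain, `μ ≥ 0` a weight with the packing `∑ (p ≤ q) μ p ≤ B μ q` at every member `q`.  Then the
members with more than `lam` ancestors (itself included) have weight at most
`(1 - 1 / B) ^ lam` times the whole weight (`tail_le`).
-/

namespace Vale.Agent.P141.H998.AffTree

open Finset

noncomputable section

open scoped Classical

variable {α : Type*} {S : Finset α} {le : α → α → Prop} {μ : α → ℝ} {B : ℝ}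

/-- the ancestors of `q` in the family, `q` included -/
def anc (S : Finset α) (le : α → α → Prop) (q : α) : Finset α := S.filter fun p => le q p

/-- the number of the ancestors -/
def nA (S : Finset α) (le : α → α → Prop) (q : α) : ℕ := (anc S le q).card

/-- containment on the family -/
structure Tre (S : Finset α) (le : α → α → Prop) : Prop where
  refl : ∀ q ∈ S, le q q
  trans : ∀ p ∈ S, ∀ q ∈ S, ∀ r ∈ S, le p q → le q r → le p r
  antisymm : ∀ p ∈ S, ∀ q ∈ S, le p q → le q p → p = q
  chain : ∀ q ∈ S, ∀ p ∈ S, ∀ r ∈ S, le q p → le q r → le p r ∨ le r p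

theorem mem_anc {p q : α} : p ∈ anc S le q ↔ p ∈ S ∧ le q p := mem_filter

theorem one_le_nA (h : Tre S le) {q : α} (hq : q ∈ S) : 1 ≤ nA S le q :=
  card_pos.2 ⟨q, mem_anc.2 ⟨hq, h.refl q hq⟩⟩

/-- the next ancestor -/
theorem exists_next (h : Tre S le) {q : α} (hq : q ∈ S) (h1 : 1 < nA S le q) :
    ∃ p ∈ S, le q p ∧ nA S le p + 1 = nA S le q := by
  have hqa : q ∈ anc S le q := mem_anc.2 ⟨hq, h.refl q hq⟩
  have hne : ((anc S le q).erase q).Nonempty := by
    rw [← card_pos, card_erase_of_mem hqa]
    unfold nA at h1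
    omega
  obtain ⟨p, hp, hmax⟩ := exists_max_image _ (nA S le) hne
  have hpq : p ≠ q := (mem_erase.1 hp).1
  have hpS : p ∈ S := (mem_anc.1 (mem_erase.1 hp).2).1
  have hqp : le q p := (mem_anc.1 (mem_erase.1 hp).2).2
  have key : ∀ r ∈ (anc S le q).erase q, le p r := by
    intro r hr
    have hrS : r ∈ S := (mem_anc.1 (mem_erase.1 hr).2).1
    have hqr : le q r := (mem_anc.1 (mem_erase.1 hr).2).2
    rcases h.chain q hq p hpS r hrS hqp hqr with h2 | h2
    · exact h2
    · by_cases he : p = r
      · rw [← he]; exact h.refl p hpS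
      · exfalso
        have h3 : anc S le p ⊂ anc S le r := by
          rw [ssubset_iff_of_subset fun a ha => mem_anc.2 ⟨(mem_anc.1 ha).1,
            h.trans r hrS p hpS a (mem_anc.1 ha).1 h2 (mem_anc.1 ha).2⟩]
          exact ⟨r, mem_anc.2 ⟨hrS, h.refl r hrS⟩, fun h4 =>
            he (h.antisymm p hpS r hrS (mem_anc.1 h4).2 h2)⟩
        have h4 := card_lt_card h3
        have h5 := hmax r hr
        unfold nA at h5
        omega
  have he : anc S le p = (anc S le q).erase q := by
    ext r
    constructor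
    · intro hr
      have hr1 := mem_anc.1 hr
      refine mem_erase.2 ⟨fun hrq => ?_, mem_anc.2 ⟨hr1.1, h.trans q hq p hpS r hr1.1 hqp hr1.2⟩⟩
      rw [hrq] at hr1
      exact hpq (h.antisymm p hpS q hq hr1.2 hqp)
    · intro hr
      exact mem_anc.2 ⟨(mem_anc.1 (mem_erase.1 hr).2).1, key r hr⟩
  refine ⟨p, hpS, hqp, ?_⟩
  unfold nA
  rw [he, card_erase_of_mem hqa]
  unfold nA at h1
  omega

/-- an ancestor of every number -/
theorem exists_anc (h : Tre S le) {i : ℕ} (hi : 1 ≤ i) : ∀ (d : ℕ) (q : α), q ∈ S →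
    nA S le q = i + d → ∃ p ∈ S, le q p ∧ nA S le p = i := by
  intro d
  induction d with
  | zero => exact fun q hq h1 => ⟨q, hq, h.refl q hq, h1⟩
  | succ d ih =>
    intro q hq h1
    obtain ⟨p, hp, hqp, h2⟩ := exists_next h hq (by omega)
    obtain ⟨r, hr, hpr, h3⟩ := ih p hp (by omega)
    exact ⟨r, hr, h.trans q hq p hp r hr hqp hpr, h3⟩

/-- the weight of the members with at least `i` ancestors -/
def wt (S : Finset α) (le : α → α → Prop) (μ : α → ℝ) (i : ℕ) : ℝ :=
  ∑ q ∈ S.filter fun q => i ≤ nA S le q, μ q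

theorem wt_nonneg (hμ : ∀ q ∈ S, 0 ≤ μ q) (i : ℕ) : 0 ≤ wt S le μ i :=
  sum_nonneg fun q hq => hμ q (mem_filter.1 hq).1

theorem wt_step (h : Tre S le) (hμ : ∀ q ∈ S, 0 ≤ μ q) (hB : 1 ≤ B)
    (hp : ∀ q ∈ S, ∑ p ∈ S.filter (fun p => le p q), μ p ≤ B * μ q) {i : ℕ} (hi : 1 ≤ i) :
    wt S le μ (i + 1) ≤ (1 - 1 / B) * wt S le μ i := by
  have hB0 : 0 < B := by linarith
  -- the members with exactly `i` ancestors
  have e1 : wt S le μ i = ∑ q ∈ S.filter (fun q => nA S le q = i), μ q + wt S le μ (i + 1) := by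
    unfold wt
    rw [← sum_union]
    · refine sum_congr ?_ fun _ _ => rfl
      ext q
      simp only [mem_union, mem_filter]
      constructor
      · rintro ⟨h1, h2⟩
        rcases Nat.eq_or_lt_of_le h2 with h3 | h3
        · exact Or.inl ⟨h1, h3.symm⟩
        · exact Or.inr ⟨h1, h3⟩
      · rintro (⟨h1, h2⟩ | ⟨h1, h2⟩)
        · exact ⟨h1, h2.ge⟩
        · exact ⟨h1, by omega⟩
    · rw [disjoint_left]
      intro q h1 h2
      have h3 := (mem_filter.1 h1).2
      have h4 := (mem_filter.1 h2).2
      omega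
  have e2 : wt S le μ i ≤ B * ∑ q ∈ S.filter (fun q => nA S le q = i), μ q := by
    rw [mul_sum]
    have h1 : wt S le μ i ≤ ∑ q ∈ S.filter (fun q => nA S le q = i),
        ∑ p ∈ S.filter (fun p => le p q), μ p := by
      unfold wt
      have h2 : S.filter (fun q => i ≤ nA S le q) ⊆
          (S.filter (fun q => nA S le q = i)).biUnion fun q => S.filter fun p => le p q := by
        intro p hp'
        obtain ⟨hpS, hpi⟩ := mem_filter.1 hp'
        obtain ⟨r, hr, hpr, h3⟩ := exists_anc h hi (nA S le p - i) p hpS (by omega)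
        exact mem_biUnion.2 ⟨r, mem_filter.2 ⟨hr, h3⟩, mem_filter.2 ⟨hpS, hpr⟩⟩
      refine (sum_le_sum_of_subset_of_nonneg h2 fun q hq _ => ?_).trans ?_
      · obtain ⟨r, _, hr⟩ := mem_biUnion.1 hq
        exact hμ q (mem_filter.1 hr).1
      · have h3 : ∀ (T : Finset α), (∀ q ∈ T, q ∈ S) →
            ∑ p ∈ T.biUnion (fun q => S.filter fun p => le p q), μ p ≤
              ∑ q ∈ T, ∑ p ∈ S.filter (fun p => le p q), μ p := by
          intro T
          induction T using Finset.induction_on with
          | empty => intro _; simp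
          | insert a T ha ih =>
            intro hT
            rw [biUnion_insert, sum_insert ha]
            have h4 := sum_union_inter (s₁ := S.filter fun p => le p a)
              (s₂ := T.biUnion fun q => S.filter fun p => le p q) (f := μ)
            have h5 : 0 ≤ ∑ p ∈ (S.filter fun p => le p a) ∩
                (T.biUnion fun q => S.filter fun p => le p q), μ p :=
              sum_nonneg fun p hp' => hμ p (mem_filter.1 (mem_inter.1 hp').1).1
            have h6 := ih fun q hq => hT q (mem_insert_of_mem hq)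
            linarith
        exact h3 _ fun q hq => (mem_filter.1 hq).1
    exact h1.trans (sum_le_sum fun q hq => hp q (mem_filter.1 hq).1)
  have h3 : wt S le μ i ≤ B * (wt S le μ i - wt S le μ (i + 1)) := by
    have h4 : ∑ q ∈ S.filter (fun q => nA S le q = i), μ q =
        wt S le μ i - wt S le μ (i + 1) := by linarith
    rw [h4] at e2
    exact e2
  have h5 : (1 - 1 / B) * wt S le μ i - wt S le μ (i + 1) =
      (B * (wt S le μ i - wt S le μ (i + 1)) - wt S le μ i) / B := by
    field_simp
    ring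
  have h6 : 0 ≤ (B * (wt S le μ i - wt S le μ (i + 1)) - wt S le μ i) / B :=
    div_nonneg (by linarith) hB0.le
  linarith

/-- **The members with more than `lam` ancestors.** -/
theorem tail_le (h : Tre S le) (hμ : ∀ q ∈ S, 0 ≤ μ q) (hB : 1 ≤ B)
    (hp : ∀ q ∈ S, ∑ p ∈ S.filter (fun p => le p q), μ p ≤ B * μ q) (lam : ℕ) :
    ∑ q ∈ S.filter (fun q => lam < nA S le q), μ q ≤ (1 - 1 / B) ^ lam * ∑ q ∈ S, μ q := by
  have hB1 : 0 ≤ 1 - 1 / B := by
    have : 1 / B ≤ 1 := by
      rw [div_le_one (by linarith)]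
      exact hB
    linarith
  have h1 : wt S le μ 1 = ∑ q ∈ S, μ q := by
    unfold wt
    rw [filter_true_of_mem fun q hq => one_le_nA h hq]
  have h2 : wt S le μ (lam + 1) ≤ (1 - 1 / B) ^ lam * wt S le μ 1 := by
    induction lam with
    | zero => simp
    | succ l ih =>
      refine (wt_step h hμ hB hp (by omega)).trans ?_
      rw [pow_succ, mul_comm ((1 - 1 / B) ^ l), mul_assoc]
      exact mul_le_mul_of_nonneg_left ih hB1
  rw [h1] at h2
  exact h2

end

end Vale.Agent.P141.H998.AffTree
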