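import Vale.Agent.P141.H998.TinyCell

/-!
# P141, line END: cells at the border of the root

`One g ud k z`: the region which consists of one cell.  `T4_one`: the black box on one cell: only
the local energies on this cell enter, also for moving families.  `Bdc s L x k y`: the cell
`(k, y)` of `gr 7 s` touches the border of the cell `(L, x)`.  `T4_border`: the total of the border
cells.
-/

namespace Vale.Agent.P141.H998

open Finset
open Vale.Agent.P141.H315 Vale.Agent.P141.H347 Vale.Agent.P141.H8 Vale.Agent.P141.H935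
open Vale.Agent.P141.H610
open Vale.Agent.P141.PL.H95 (gr mem_gr card_gr gr_cube)
open Vale.Agent.P141.PL.H855 (CBlk0 CSlot0 N4 TR T4_toNV)

noncomputable section

open scoped Classical

section one

variable {X α : Type*} {g : Grid X} {s : Sl X α} {gd ud : ℕ → X → Prop} {L : ℕ} {x : X}

/-- one cell -/
def One (g : Grid X) (ud : ℕ → X → Prop) (k : ℕ) (z : X) : ℕ → X → Prop :=
  fun k' y => k' = k ∧ y ∈ g.cube k z ∧ ud k' y

theorem rgn_one (h : Rgn g gd L x ud) (k : ℕ) (z : X) : Rgn g gd k z (One g ud k z) where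
  const k' y y' hy' := by
    unfold One
    constructor
    · rintro ⟨rfl, h2, h3⟩
      exact ⟨rfl, g.cube_subset le_rfl h2 (mem_cube_comm hy'), (h.const _ y y' hy').1 h3⟩
    · rintro ⟨rfl, h2, h3⟩
      exact ⟨rfl, g.cube_subset le_rfl h2 hy', (h.const _ y y' hy').2 h3⟩
  up k' hk y := fun ⟨h1, _, _⟩ => absurd h1 (by omega)
  bel k' y := fun ⟨h1, h2, _⟩ => ⟨h1.le, h2⟩
  sub k' y := fun ⟨_, _, h3⟩ => h.sub k' y h3

/-- the total of the cells with the property `P`, cell by cell -/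
theorem T1_ones (h : Rgn g gd L x ud) {P : ℕ → X → Prop}
    (hP : ∀ i y z, z ∈ g.cube i y → (P i z ↔ P i y)) (A : ℕ → X → ℝ) :
    T1 s (An ud P) A = ∑ i ∈ range (L + 1), ∑ z ∈ g.cube L x, if ud i z ∧ P i z then
      (cd g i z)⁻¹ * T1 s (One g ud i z) A else 0 := by
  have e1 : ∀ N ∈ s.nd, (if An ud P (s.sc N) (s.pt N) then |s.v N (A (s.sc N))| else 0) =
      ∑ i ∈ range (L + 1), ∑ z ∈ g.cube L x, (if ud i z ∧ P i z then
        (cd g i z)⁻¹ * (if One g ud i z (s.sc N) (s.pt N) then |s.v N (A (s.sc N))| else 0)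
          else 0) := by
    intro N _
    by_cases hu : An ud P (s.sc N) (s.pt N)
    · rw [if_pos hu]
      obtain ⟨hk, hy⟩ := h.bel _ _ hu.1
      rw [sum_eq_single (s.sc N)]
      · have e2 : ∀ z ∈ g.cube L x, (if ud (s.sc N) z ∧ P (s.sc N) z then
            (cd g (s.sc N) z)⁻¹ * (if One g ud (s.sc N) z (s.sc N) (s.pt N) then
              |s.v N (A (s.sc N))| else 0) else 0) =
            if z ∈ g.cube (s.sc N) (s.pt N) then
              (cd g (s.sc N) (s.pt N))⁻¹ * |s.v N (A (s.sc N))| else 0 := by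
          intro z _
          by_cases hz : z ∈ g.cube (s.sc N) (s.pt N)
          · have h1 : ud (s.sc N) z := (h.const _ _ z hz).2 hu.1
            have h2 : P (s.sc N) z := (hP _ _ z hz).2 hu.2
            have h3 : One g ud (s.sc N) z (s.sc N) (s.pt N) := ⟨rfl, mem_cube_comm hz, hu.1⟩
            rw [if_pos ⟨h1, h2⟩, if_pos h3, if_pos hz, cd_eq hz]
          · have h3 : ¬ One g ud (s.sc N) z (s.sc N) (s.pt N) :=
              fun h4 => hz (mem_cube_comm h4.2.1)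
            rw [if_neg h3, if_neg hz, mul_zero, ite_self]
        rw [sum_congr rfl e2, sum_ite_mem, inter_eq_right.2 (g.cube_subset hk hy), sum_const,
          nsmul_eq_mul]
        have hc : (0 : ℝ) < cd g (s.sc N) (s.pt N) := cd_pos g _ _
        have hc' : ((g.cube (s.sc N) (s.pt N)).card : ℝ) = cd g (s.sc N) (s.pt N) := rfl
        rw [hc', ← mul_assoc, mul_inv_cancel₀ hc.ne', one_mul]
      · intro i _ hne
        refine sum_eq_zero fun z _ => ?_
        have h3 : ¬ One g ud i z (s.sc N) (s.pt N) := fun h4 => hne h4.1.symm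
        rw [if_neg h3, mul_zero, ite_self]
      · intro h0
        exact absurd (mem_range.2 (by omega)) h0
    · rw [if_neg hu]
      symm
      refine sum_eq_zero fun i _ => sum_eq_zero fun z _ => ?_
      split_ifs with h1 h2
      · exfalso
        obtain ⟨h3, h4, h5⟩ := h2
        refine hu ⟨h5, ?_⟩
        rw [h3]
        exact (hP i z _ h4).2 h1.2
      · simp
      · rfl
  unfold T1
  rw [sum_congr rfl e1, sum_comm]
  refine sum_congr rfl fun i _ => ?_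
  rw [sum_comm]
  refine sum_congr rfl fun z _ => ?_
  split_ifs
  · rw [mul_sum]
  · exact sum_const_zero

theorem T1_ones_le {b : ℝ} (h : Rgn g gd L x ud) {P : ℕ → X → Prop}
    (hP : ∀ i y z, z ∈ g.cube i y → (P i z ↔ P i y)) {A : ℕ → X → ℝ}
    (hT : ∀ i z, ud i z → P i z → T1 s (One g ud i z) A ≤ b * cd g i z) :
    T1 s (An ud P) A ≤
      b * ∑ i ∈ range (L + 1), ∑ z ∈ g.cube L x, if ud i z ∧ P i z then (1 : ℝ) else 0 := by
  rw [T1_ones h hP, mul_sum]
  refine sum_le_sum fun i _ => ?_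
  rw [mul_sum]
  refine sum_le_sum fun z _ => ?_
  split_ifs with h1
  · rw [inv_mul_le_iff₀ (cd_pos g i z), mul_one, mul_comm]
    exact hT i z h1.1 h1.2
  · simp

end one

/-! ## One cell from the black box -/

variable {α : Type*} {s : ℤ} {gd ud : ℕ → ℤ → Prop} {L : ℕ} {x : ℤ}

/-- on one cell every family is static -/
theorem slot_one (h : Rgn (gr 7 s) gd L x ud) {k : ℕ} {y : ℤ} (hu : ud k y) {A : ℕ → ℤ → ℝ}
    {e : ℝ} (he : 0 < e) (hA : dot ((gr 7 s).cube k y) (A k) (A k) ≤ e * cd (gr 7 s) k y) :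
    CSlot0 s k (cutR (One (gr 7 s) ud k y) A) (68 * √e) := by
  have e1 : cutR (One (gr 7 s) ud k y) A = cutR (One (gr 7 s) ud k y) (st (A k)) := by
    funext k' z
    by_cases h1 : One (gr 7 s) ud k y k' z
    · rw [cutR_of h1, cutR_of h1]
      obtain ⟨rfl, -, -⟩ := h1
      rfl
    · rw [cutR_not h1, cutR_not h1]
  rw [e1]
  refine cslot0_st (rgn_one h k y) he ?_
  rintro k' z ⟨rfl, h2, h3⟩
  rw [(gr 7 s).eq_of_mem _ _ _ h2, cd_eq h2]
  exact hA

/-- **the black box on one cell** -/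
theorem T4_one {nv : N4 (gr 7 s) α} {CP : ℝ} (hb : BoxHyp nv gd CP) (σ : Equiv.Perm (Fin 4))
    (h : Rgn (gr 7 s) gd L x ud) {k : ℕ} {y : ℤ} (hu : ud k y) {A B C D : ℕ → ℤ → ℝ}
    {ea eb ec ed : ℝ} (ha : 0 < ea) (hb' : 0 < eb) (hc : 0 < ec) (hd : 0 < ed)
    (hA : dot ((gr 7 s).cube k y) (A k) (A k) ≤ ea * cd (gr 7 s) k y)
    (hB : dot ((gr 7 s).cube k y) (B k) (B k) ≤ eb * cd (gr 7 s) k y)
    (hC : dot ((gr 7 s).cube k y) (C k) (C k) ≤ ec * cd (gr 7 s) k y)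
    (hD : dot ((gr 7 s).cube k y) (D k) (D k) ≤ ed * cd (gr 7 s) k y) :
    T4 (nv.toNV σ) (One (gr 7 s) ud k y) A B C D ≤
      CP * (68 ^ 4 * √(ea * eb * ec * ed)) / 128 * cd (gr 7 s) k y := by
  have h1 := T4_of_box hb σ (rgn_one h k y) ⟨rfl, (gr 7 s).mem k y, hu⟩ (slot_one h hu ha hA)
    (slot_one h hu hb' hB) (slot_one h hu hc hC) (slot_one h hu hd hD)
  refine h1.trans (le_of_eq ?_)
  rw [Real.sqrt_mul (by positivity), Real.sqrt_mul (by positivity), Real.sqrt_mul ha.le]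
  ring

/-! ## The border of the root -/

/-- the left end of a cell -/
def lo (s : ℤ) (k : ℕ) (y : ℤ) : ℤ := 2 ^ (k + 7) * ((y + s) / 2 ^ (k + 7)) - s

/-- the cell `(k, y)` touches the border of the cell `(L, x)` -/
def Bdc (s : ℤ) (L : ℕ) (x : ℤ) (k : ℕ) (y : ℤ) : Prop :=
  lo s k y = lo s L x ∨ lo s k y + 2 ^ (k + 7) = lo s L x + 2 ^ (L + 7)

theorem mem_lo {s : ℤ} {k : ℕ} {y z : ℤ} :
    z ∈ (gr 7 s).cube k y ↔ lo s k y ≤ z ∧ z < lo s k y + 2 ^ (k + 7) := by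
  rw [gr_cube, mem_Ico]; rfl

theorem lo_const {s : ℤ} {k : ℕ} {y z : ℤ} (h : z ∈ (gr 7 s).cube k y) : lo s k z = lo s k y := by
  unfold lo; rw [mem_gr.1 h]

theorem bdc_const (s : ℤ) (L : ℕ) (x : ℤ) (i : ℕ) (y z : ℤ) (h : z ∈ (gr 7 s).cube i y) :
    Bdc s L x i z ↔ Bdc s L x i y := by
  unfold Bdc; rw [lo_const h]

/-- two cells of every scale touch the border -/
theorem sum_bdc (s : ℤ) (L : ℕ) (x : ℤ) (i : ℕ) :
    ∑ z ∈ (gr 7 s).cube L x, (if ud i z ∧ Bdc s L x i z then (1 : ℝ) else 0) ≤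
      2 * 2 ^ (i + 7) := by
  have h1 : ∀ z ∈ (gr 7 s).cube L x, (if ud i z ∧ Bdc s L x i z then (1 : ℝ) else 0) ≤
      (if z ∈ Ico (lo s L x) (lo s L x + 2 ^ (i + 7)) then (1 : ℝ) else 0) +
      (if z ∈ Ico (lo s L x + 2 ^ (L + 7) - 2 ^ (i + 7)) (lo s L x + 2 ^ (L + 7)) then
        (1 : ℝ) else 0) := by
    intro z _
    have hz := mem_lo.1 ((gr 7 s).mem i z)
    by_cases h2 : ud i z ∧ Bdc s L x i z
    · rw [if_pos h2]
      rcases h2.2 with h3 | h3
      · have h4 : z ∈ Ico (lo s L x) (lo s L x + 2 ^ (i + 7)) := by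
          rw [mem_Ico, ← h3]; exact hz
        rw [if_pos h4]
        have : (0 : ℝ) ≤ (if z ∈ Ico (lo s L x + 2 ^ (L + 7) - 2 ^ (i + 7))
          (lo s L x + 2 ^ (L + 7)) then (1 : ℝ) else 0) := by split_ifs <;> norm_num
        linarith
      · have h4 : z ∈ Ico (lo s L x + 2 ^ (L + 7) - 2 ^ (i + 7)) (lo s L x + 2 ^ (L + 7)) := by
          rw [mem_Ico]
          constructor <;> linarith [hz.1, hz.2]
        rw [if_pos h4]
        have : (0 : ℝ) ≤ (if z ∈ Ico (lo s L x) (lo s L x + 2 ^ (i + 7)) then (1 : ℝ) else 0) := by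
          split_ifs <;> norm_num
        linarith
    · rw [if_neg h2]
      split_ifs <;> norm_num
  refine (sum_le_sum h1).trans ?_
  rw [sum_add_distrib]
  have h5 : ∀ a : ℤ, ∑ z ∈ (gr 7 s).cube L x, (if z ∈ Ico a (a + 2 ^ (i + 7)) then
      (1 : ℝ) else 0) ≤ 2 ^ (i + 7) := by
    intro a
    rw [sum_ite_mem, sum_const, nsmul_eq_mul, mul_one]
    have h6 : (((gr 7 s).cube L x ∩ Ico a (a + 2 ^ (i + 7))).card : ℝ) ≤
        (Ico a (a + 2 ^ (i + 7))).card := by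
      exact_mod_cast card_le_card inter_subset_right
    refine h6.trans (le_of_eq ?_)
    rw [Int.card_Ico, show a + 2 ^ (i + 7) - a = ((2 ^ (i + 7) : ℕ) : ℤ) by push_cast; ring,
      Int.toNat_natCast]
    push_cast
    rfl
  have h7 := h5 (lo s L x)
  have h8 := h5 (lo s L x + 2 ^ (L + 7) - 2 ^ (i + 7))
  rw [show lo s L x + 2 ^ (L + 7) - 2 ^ (i + 7) + 2 ^ (i + 7) = lo s L x + 2 ^ (L + 7) by ring]
    at h8
  linarith

theorem sum_bdc_all (s : ℤ) (L : ℕ) (x : ℤ) :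
    ∑ i ∈ range (L + 1), ∑ z ∈ (gr 7 s).cube L x,
      (if ud i z ∧ Bdc s L x i z then (1 : ℝ) else 0) ≤ 4 * cd (gr 7 s) L x := by
  refine (sum_le_sum fun i _ => sum_bdc s L x i).trans ?_
  have h1 : cd (gr 7 s) L x = 2 ^ (L + 7) := H610.cd_gr s L x
  rw [h1]
  have h2 : ∀ n : ℕ, ∑ i ∈ range n, (2 : ℝ) * 2 ^ (i + 7) ≤ 2 * 2 ^ (n + 7) := by
    intro n
    induction n with
    | zero => simp
    | succ n ih =>
      rw [sum_range_succ]
      have : (2 : ℝ) ^ (n + 1 + 7) = 2 * 2 ^ (n + 7) := by ring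
      rw [this]; linarith
  refine (h2 (L + 1)).trans (le_of_eq ?_)
  ring

/-- **the total of the border cells** -/
theorem T4_border {nv : N4 (gr 7 s) α} {CP : ℝ} (hCP : 0 ≤ CP) (hb : BoxHyp nv gd CP)
    (σ : Equiv.Perm (Fin 4)) (h : Rgn (gr 7 s) gd L x ud) {A B C D : ℕ → ℤ → ℝ}
    {ea eb ec ed : ℝ} (ha : 0 < ea) (hb' : 0 < eb) (hc : 0 < ec) (hd : 0 < ed)
    (hA : ∀ k y, ud k y → dot ((gr 7 s).cube k y) (A k) (A k) ≤ ea * cd (gr 7 s) k y)
    (hB : ∀ k y, ud k y → dot ((gr 7 s).cube k y) (B k) (B k) ≤ eb * cd (gr 7 s) k y)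
    (hC : ∀ k y, ud k y → dot ((gr 7 s).cube k y) (C k) (C k) ≤ ec * cd (gr 7 s) k y)
    (hD : ∀ k y, ud k y → dot ((gr 7 s).cube k y) (D k) (D k) ≤ ed * cd (gr 7 s) k y) :
    T4 (nv.toNV σ) (An ud (Bdc s L x)) A B C D ≤
      CP * 68 ^ 4 / 32 * √(ea * eb * ec * ed) * cd (gr 7 s) L x := by
  have h1 := T1_ones_le (s := sl1 (nv.toNV σ) B C D) h (bdc_const s L x) (A := A)
    (b := CP * (68 ^ 4 * √(ea * eb * ec * ed)) / 128) fun i z hu _ =>
      T4_one hb σ h hu ha hb' hc hd (hA i z hu) (hB i z hu) (hC i z hu) (hD i z hu)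
  refine h1.trans ?_
  have h2 : 0 ≤ CP * (68 ^ 4 * √(ea * eb * ec * ed)) / 128 := by positivity
  refine (mul_le_mul_of_nonneg_left (sum_bdc_all s L x) h2).trans (le_of_eq ?_)
  ring

end

end Vale.Agent.P141.H998
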