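import Vale.Agent.P141.H639.CenSt
import Vale.Agent.P141.H650.Spec.CE1N
import Vale.Agent.P141.H927.Spec2

/-!
# P141, CE with thin label sets: from one box to the costs of the level

`Spr W B I J u`: the rows of `u` outside a set `X` vanish and `|X ∩ I| / |I| * W ≤ B`; inherited by
parts (`clo_spr`).  `cenStM_of_ce1 : H927.CE1StM → H927.CenStM`: as `H639.cenSt_of_ce1`, the active
set `X` is carried along.
-/

namespace Vale.Agent.P141.H998

open Finset Vale.Agent.P141.PL Vale.Agent.P141.H48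
open Vale.Agent.P141.PL (Pt fc)
open Vale.Agent.P141.PL.H315 (avg cube3)
open Vale.Agent.P141.PL.H95 (gr)
open Vale.Agent.P141.H572 (cosF)
open Vale.Agent.P141.H347.Gs (Ex e2 e2_pos kap cwG)
open Vale.Agent.P141.H736 (cost)
open Vale.Agent.P141.H639
open Vale.Agent.P141.H971 (Cen)
open Vale.Agent.P141.H922 (n2)
open Vale.Agent.P141.H834 (gf)
open Vale.Agent.P141.H927 (CE1StM CenStM)

noncomputable section

open scoped Classical

section spr

variable {V : Type*} [AddCommMonoid V]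

/-- the rows outside a thin set vanish -/
def Spr (W B : ℝ) (I J : Finset ℤ) (u : ℤ → ℤ → V) : Prop :=
  ∃ X : Finset ℤ, (∀ z ∈ I, z ∉ X → ∀ y ∈ J, u z y = 0) ∧
    (avg I fun z => if z ∈ X then (1 : ℝ) else 0) * W ≤ B

theorem clo_spr {W B : ℝ} (hW : 0 ≤ W) : Clo (V := V) (Spr W B) := by
  intro I J f I' J' f' hI _ hs hp
  obtain ⟨K1, K2, s1, s2, h1, h2, h3, _, h5⟩ := hs
  obtain ⟨X, hX, hB⟩ := hp
  refine ⟨I'.filter fun a => K1 a ∧ s1 a ∈ X, fun a ha hn b hb => ?_,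
    le_trans (mul_le_mul_of_nonneg_right ?_ hW) hB⟩
  · by_cases hK : K1 a ∧ K2 b
    · rw [(h5 a ha b hb).1 hK]
      exact hX _ (h1 a ha hK.1) (fun h => hn (mem_filter.2 ⟨ha, hK.1, h⟩)) _ (h3 b hb hK.2)
    · exact (h5 a ha b hb).2 hK
  · unfold Vale.Agent.P141.PL.H315.avg
    rw [hI]
    refine mul_le_mul_of_nonneg_left ?_ (by positivity)
    rw [sum_boole, sum_boole]
    have h6 : (I'.filter fun z => z ∈ I'.filter fun a => K1 a ∧ s1 a ∈ X).card ≤
        (I.filter fun z => z ∈ X).card := by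
      refine card_le_card_of_injOn s1 (fun a ha => ?_) fun a ha b hb e => ?_
      · have h7 := mem_filter.1 (mem_filter.1 (mem_coe.1 ha)).2
        exact mem_coe.2 (mem_filter.2 ⟨h1 a h7.1 h7.2.1, h7.2.2⟩)
      · have h7 := mem_filter.1 (mem_filter.1 (mem_coe.1 ha)).2
        have h8 := mem_filter.1 (mem_filter.1 (mem_coe.1 hb)).2
        exact h2 a h7.1 b h8.1 h7.2.1 h8.2.1 e
    exact_mod_cast h6

theorem avg_union_le (I X Y : Finset ℤ) :
    (avg I fun z => if z ∈ X ∪ Y then (1 : ℝ) else 0) ≤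
      (avg I fun z => if z ∈ X then (1 : ℝ) else 0) +
        avg I fun z => if z ∈ Y then (1 : ℝ) else 0 := by
  unfold Vale.Agent.P141.PL.H315.avg
  rw [← mul_add, ← sum_add_distrib]
  refine mul_le_mul_of_nonneg_left (sum_le_sum fun z _ => ?_) (by positivity)
  by_cases h : z ∈ X <;> by_cases h' : z ∈ Y <;> simp [h, h']

end spr

/-- rows outside `X` replaced by zero -/
def cutX {V : Type*} [Zero V] (X : Finset ℤ) (u : ℤ → ℤ → V) (z : ℤ) : ℤ → V :=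
  if z ∈ X then u z else 0

theorem cutX_off {V : Type*} [Zero V] {X : Finset ℤ} {u : ℤ → ℤ → V} {z : ℤ} (h : z ∉ X) :
    cutX X u z = 0 := if_neg h

theorem cutX_eq {V : Type*} [Zero V] {X : Finset ℤ} {u : ℤ → ℤ → V} {z y : ℤ}
    (h : z ∉ X → u z y = 0) : cutX X u z y = u z y := by
  unfold cutX
  split_ifs with hz
  · rfl
  · exact (h hz).symm

section cen

variable {V : Type*} [NormedAddCommGroup V] [InnerProductSpace ℝ V]

/-- centre data read the cells only -/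
theorem cen_congr {A B C : Finset ℤ} {h p e K : ℝ} {g : ℤ → ℤ → ℝ} {u v u' v' : ℤ → ℤ → V}
    (H : Cen A B C h p e K g u v) (hu : ∀ z ∈ C, ∀ x ∈ A, u' z x = u z x)
    (hv : ∀ z ∈ C, ∀ y ∈ B, v' z y = v z y) : Cen A B C h p e K g u' v' := by
  have avc : ∀ (Q : Finset ℤ) (f f' : ℤ → ℝ), (∀ z ∈ Q, f z = f' z) → avg Q f = avg Q f' := by
    intro Q f f' hf
    unfold Vale.Agent.P141.PL.H315.avg
    rw [sum_congr rfl hf]
  refine ⟨H.a_le, H.a_n2, H.a_row, fun z hz x hx => ?_, fun z hz y hy => ?_, ?_, ?_,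
    fun x hx => ?_, fun z hz w => ?_, fun z hz w => ?_⟩
  · rw [hu z hz x hx]; exact H.u_le z hz x hx
  · rw [hv z hz y hy]; exact H.v_le z hz y hy
  · rw [avc C _ (fun z => avg A fun x => ‖u z x‖ ^ 2) fun z hz =>
      avc A _ _ fun x hx => by rw [hu z hz x hx]]
    exact H.u_en
  · rw [avc C _ (fun z => avg B fun y => ‖v z y‖ ^ 2) fun z hz =>
      avc B _ _ fun y hy => by rw [hv z hz y hy]]
    exact H.v_en
  · rw [avc C _ (fun z => ‖u z x‖ ^ 2) fun z hz => by rw [hu z hz x hx]]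
    exact H.u_col x hx
  · rw [avc A _ (fun x => (inner ℝ (u z x) w) ^ 2) fun x hx => by rw [hu z hz x hx]]
    exact H.u_pot z hz w
  · rw [avc B _ (fun y => (inner ℝ (v z y) w) ^ 2) fun y hy => by rw [hv z hz y hy]]
    exact H.v_pot z hz w

theorem cenf_congr {K : ℕ} {x : Pt} {g : ℤ → ℤ → ℝ} {u v u' v' : ℤ → ℤ → V}
    (hu : ∀ z ∈ PL.H315.iv K x.1, ∀ y ∈ PL.H315.iv K x.2.1, u' z y = u z y)
    (hv : ∀ z ∈ PL.H315.iv K x.1, ∀ y ∈ PL.H315.iv K x.2.2, v' z y = v z y) :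
    ∀ y ∈ cube3 K x, cenf 0 1 2 g u v y = cenf 0 1 2 g u' v' y := by
  intro y hy
  rw [Vale.Agent.P141.PL.H315.mem_cube3] at hy
  obtain ⟨h1, h2, h3⟩ := hy
  show g y.2.1 y.2.2 * inner ℝ (u y.1 y.2.1) (v y.1 y.2.2) =
    g y.2.1 y.2.2 * inner ℝ (u' y.1 y.2.1) (v' y.1 y.2.2)
  rw [hu _ h1 _ h2, hv _ h1 _ h3]

end cen

/-- **The costs of the level from CE1 with thin label sets.** -/
theorem cenStM_of_ce1 (H : CE1StM) : CenStM := by
  obtain ⟨a, gam, c1, ha0, ha1, hg, hc1, H⟩ := H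
  refine ⟨a, gam, min c1 1, ha0, ha1, hg, lt_min hc1 one_pos,
    fun c hc0 hcc Kc L e0 hKc hL he0 => ?_⟩
  set T0 : ℝ := H437.TT with hT0
  have hT : CmpSt 7 T0 := H437.cmpT
  have hT1 : 1 ≤ T0 := by
    rw [hT0]
    unfold H437.TT
    norm_num
  set e1 : ℝ := 1 + Kc + Kc ^ 2 with he1
  have he1' : 1 ≤ e1 := by rw [he1]; nlinarith [sq_nonneg Kc]
  have hTe : 1 ≤ T0 ^ 2 * e1 := one_le_mul_of_one_le_of_one_le (one_le_pow₀ hT1) he1'
  obtain ⟨C, hC, H⟩ := H c hc0 (hcc.trans (min_le_left _ _)) (T0 * Kc) (T0 ^ 2 * e1) 52 (2 * L) e0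
    (mul_pos (by linarith) hKc) hTe (by norm_num) (by positivity) he0
  refine ⟨8 * (1521 ^ 2 * (8 * (C * √(T0 ^ 2 * e1)))), by positivity, ?_⟩
  intro e heK hec σ r j k x q l m n hd V _ _ _ h p g u v X hh hp hcen hXu0 hXv0 hXd
  set t : ℝ := e2 (-1) j with ht
  have ht0 : 0 < t := e2_pos _ _
  have ht1 : t ≤ 1 := e2_neg_one_le j
  set Y : ℝ := C * (t ^ (1 + gam) * (√h * (p ^ 2 * √p)) * √(T0 ^ 2 * e1) * 8 ^ k) with hY
  have hY0 : 0 ≤ Y := by positivity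
  have htc : (e.mp j).t = Kc * t ^ (1 - c) := by
    show e.K * e2 (-(1 - e.c)) j = _
    rw [heK, hec, ht, e2_neg_one_rpow]
  have htc1 : t ^ (1 - c) ≤ 1 :=
    Real.rpow_le_one ht0.le ht1 (by have := hcc.trans (min_le_right c1 1); linarith)
  have htc0 : 0 < t ^ (1 - c) := Real.rpow_pos_of_pos ht0 _
  have hE : (e.mp j).E ≤ e1 := by
    show e.K ≤ e1
    rw [heK, he1]
    nlinarith [sq_nonneg Kc]
  have hte : (e.mp j).t ^ 2 ≤ e1 := by
    rw [htc, mul_pow, he1]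
    have h1 : (t ^ (1 - c)) ^ 2 ≤ 1 := pow_le_one₀ htc0.le htc1
    nlinarith [sq_nonneg Kc, mul_le_mul_of_nonneg_left h1 (sq_nonneg Kc)]
  have hKp : L * e2 (-(2 - c)) j * (h * p) = L * t ^ (2 - c) * (h * p) := by
    rw [ht, e2_neg_one_rpow]
  have hKp0 : 0 ≤ L * t ^ (2 - c) * (h * p) := by positivity
  have hK2 : L * t ^ (2 - c) * (h * p) ≤ 2 * L * t ^ (2 - c) * (h * p) := by nlinarith
  rw [hKp] at hcen
  -- the density of the label set
  set W : ℝ := t ^ 2 * (h * p) with hW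
  have hW0 : 0 ≤ W := by positivity
  set B : ℝ := L * (t ^ a * p ^ 2) with hB0
  have hXd' : (avg (PL.H315.iv k (co l q)) fun z => if z ∈ X then (1 : ℝ) else 0) * W ≤ B := by
    have h1 : t ^ 2 = e2 (-2) j := by
      rw [← Real.rpow_natCast, ht, e2_neg_one_rpow]
      norm_num
    rw [hW, hB0, h1, ht, e2_neg_one_rpow]
    exact hXd
  -- the box cost
  have hB : CeB k (T0 * (e.mp j).t) (T0 ^ 2 * e1) Y
      (CenC k (PCen h p)
        (fun I J f => QCen (V := V) h p e0 (L * t ^ (2 - c) * (h * p)) I J f ∧ Spr W B I J f)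
        (fun I J f => RCen (V := V) h p e0 (L * t ^ (2 - c) * (h * p)) I J f ∧ Spr W B I J f)
        0 1 2) := by
    rintro n' hn' F1 F2 F3 h1 h2 h3 o ho y f ⟨g', u', v', rfl, ha, ⟨hb, Xu, hXu, hXu'⟩,
      hc', Xv, hXv, hXv'⟩
    have e1' : T0 * (e.mp j).t = T0 * Kc * t ^ (1 - c) := by rw [htc]; ring
    rw [e1'] at h1 h3
    have hcen' := cen_iff.2 ⟨ha, hb, hc'⟩
    have hu : ∀ z ∈ PL.H315.iv k y.1, ∀ w ∈ PL.H315.iv k y.2.1, cutX (Xu ∪ Xv) u' z w = u' z w :=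
      fun z hz w hw => cutX_eq fun hn => hXu z hz (fun h => hn (mem_union_left _ h)) w hw
    have hv : ∀ z ∈ PL.H315.iv k y.1, ∀ w ∈ PL.H315.iv k y.2.2, cutX (Xu ∪ Xv) v' z w = v' z w :=
      fun z hz w hw => cutX_eq fun hn => hXv z hz (fun h => hn (mem_union_right _ h)) w hw
    rw [H650.cosF_congr (cenf_congr (g := g') hu hv)]
    refine H t ht0 ht1 n' _ F1 F2 F3 h1 h3 h2 o ho k hn' y V h p g' _ _ (Xu ∪ Xv) hh hp
      (H650.Cen.mono_K (cen_congr hcen' hu hv) hK2) (fun z hz w => by rw [cutX_off hz]; rfl)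
      (fun z hz w => by rw [cutX_off hz]; rfl) ?_
    have h4 := mul_le_mul_of_nonneg_right (avg_union_le (PL.H315.iv k y.1) Xu Xv) hW0
    rw [add_mul] at h4
    have h5 : (avg (PL.H315.iv k y.1) fun z => if z ∈ Xu then (1 : ℝ) else 0) * W ≤ B := hXu'
    have h6 : (avg (PL.H315.iv k y.1) fun z => if z ∈ Xv then (1 : ℝ) else 0) * W ≤ B := hXv'
    have h7 : B + B = 2 * L * (t ^ a * p ^ 2) := by rw [hB0]; ring
    exact (h4.trans (add_le_add h5 h6)).trans h7.le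
  obtain ⟨h1, h2, h3⟩ := cen_iff.1 hcen
  have key : ∀ a : Fin 4 × Bool, cost (((e.mp j).cw σ r).κ a) (((e.mp j).cw σ r).o a) r
      (pfw (fc r) k q (cenf l m n g u v)) k ((gr 7 σ).cube k x) ≤ 1521 ^ 2 * (8 * Y) := fun a =>
    cost_cen (clo_pcen hh hp) ((clo_qcen hh hp he0.le hKp0).and (clo_spr hW0))
      ((clo_rcen hh hp he0.le hKp0).and (clo_spr hW0)) hT1 hT hE
      hte hY0 hB a.1 r (((e.mp j).cw σ r).ho a) hd
      ⟨g, u, v, rfl, h1, ⟨h2, X, fun z _ hz y _ => hXu0 z hz y, hXd'⟩,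
        ⟨h3, X, fun z _ hz y _ => hXv0 z hz y, hXd'⟩⟩ x
  have e2' : ((e.mp j).cw σ r).cst (pfw (fc r) k q (cenf l m n g u v)) k
      ((gr 7 σ).cube k x) ≤ ∑ _a : Fin 4 × Bool, 1521 ^ 2 * (8 * Y) := by
    refine sum_le_sum fun a _ => ?_
    have : ((e.mp j).cw σ r).nrm a = 1 := rfl
    rw [this, div_one]
    exact key a
  refine e2'.trans (le_of_eq ?_)
  rw [sum_const, card_univ, Fintype.card_prod, Fintype.card_fin, Fintype.card_bool, nsmul_eq_mul,
    hY, ht, e2_neg_one_rpow]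
  push_cast
  ring

end

end Vale.Agent.P141.H998
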