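import Vale.Agent.P141.H834.CntP
import Vale.Agent.P141.H944.BoxP

/-!
# P141, line W, scale-invariant version: level one with one `L⁴` norm, and the row truncation

`R` is any function on a box with line averages of `R²` at most `e`; `u = (a₁₂, a₁₃, a₂₃)`.

* `l1_12`, `l1_13`, `l1_23`: the average of `|R a₁₂ a₁₃ a₂₃|` is at most `√e` times the `L⁴` norm
  of one edge times the `L²` norms of the two others;
* `l2_x`, `l2_y`, `l2_z`: it is at most `√e` times the `L²` norm of an edge times the square root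
  of the average of the product of the energies at the opposite vertex;
* `row_cut`: the part of the atom on the rows of `a₁₂` with energy larger than `κ⁶ z² |a₁₂|₂²` is
  at most `2 √e z |a₁₂|₂ |a₁₃|₂ |a₂₃|₂ / κ`.
-/

namespace Vale.Agent.P141.H998

noncomputable section

open scoped BigOperators
open Finset Vale.Agent.P141.PL.H315
open Vale.Agent.P141.H550 (avg_congr avg_mono avg_const avg_mul_left avg_add avg_prod avg_comm
  avg_mul_sq_le)
open Vale.Agent.P141.H922 (n2 n4 nN n2_nonneg n4_nonneg nN_nonneg n2_sq n4_sq n4_four nN_sq)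
open Vale.Agent.P141.H834 (LineB)

/-- energy of the row of `x` -/
def rwE (B : Finset ℤ) (d : ℤ × ℤ → ℝ) (x : ℤ) : ℝ := avg B fun y => d (x, y) ^ 2

/-- energy of the column of `y` -/
def clE (A : Finset ℤ) (d : ℤ × ℤ → ℝ) (y : ℤ) : ℝ := avg A fun x => d (x, y) ^ 2

theorem rwE_nonneg (B : Finset ℤ) (d : ℤ × ℤ → ℝ) (x : ℤ) : 0 ≤ rwE B d x :=
  avg_nonneg fun _ _ => sq_nonneg _

theorem clE_nonneg (A : Finset ℤ) (d : ℤ × ℤ → ℝ) (y : ℤ) : 0 ≤ clE A d y :=
  avg_nonneg fun _ _ => sq_nonneg _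

theorem avg_rwE (A B : Finset ℤ) (d : ℤ × ℤ → ℝ) : avg A (rwE B d) = n2 (A ×ˢ B) d ^ 2 := by
  rw [n2_sq, avg_prod]; rfl

theorem avg_clE (A B : Finset ℤ) (d : ℤ × ℤ → ℝ) : avg B (clE A d) = n2 (A ×ˢ B) d ^ 2 := by
  rw [n2_sq, avg_prod, avg_comm]; rfl

theorem avg_mul_right' {X : Type*} (Q : Finset X) (c : ℝ) (f : X → ℝ) :
    avg Q (fun x => f x * c) = avg Q f * c := by
  rw [mul_comm, ← avg_mul_left]
  exact avg_congr fun _ _ => mul_comm _ _

section

variable {A B C : Finset ℤ} {e : ℝ} {R : ℤ × ℤ × ℤ → ℝ}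

/-- the average over the box as an iterated average -/
theorem avg_box (f : ℤ × ℤ × ℤ → ℝ) :
    avg (A ×ˢ B ×ˢ C) f = avg A fun x => avg B fun y => avg C fun z => f (x, y, z) := by
  rw [avg_prod]
  exact avg_congr fun x _ => avg_prod _ _ _

/-- **Level one with one `L⁴` norm (edge `12`).** -/
theorem l1_12 (he : 0 ≤ e) (hL : LineB e A B C R) (u : Tri) :
    (avg (A ×ˢ B ×ˢ C) fun q => |R q * atm u q|) ≤
      √e * (n4 (A ×ˢ B) u.1 * n2 (A ×ˢ C) u.2.1 * n2 (B ×ˢ C) u.2.2) := by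
  obtain ⟨a, b, c⟩ := u
  simp only
  set K : ℤ × ℤ → ℝ := fun r => avg C fun z => |R (r.1, r.2, z) * (b (r.1, z) * c (r.2, z))| with hK
  set P : ℤ × ℤ → ℝ := fun r => avg C fun z => (R (r.1, r.2, z) * b (r.1, z)) ^ 2 with hP
  set S : ℤ × ℤ → ℝ := fun r => avg C fun z => (R (r.1, r.2, z) * c (r.2, z)) ^ 2 with hS
  have hK0 : ∀ r, 0 ≤ K r := fun r => avg_nonneg fun _ _ => abs_nonneg _
  have hP0 : ∀ r, 0 ≤ P r := fun r => avg_nonneg fun _ _ => sq_nonneg _
  have hS0 : ∀ r, 0 ≤ S r := fun r => avg_nonneg fun _ _ => sq_nonneg _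
  -- Cauchy-Schwarz in the third variable, in two ways
  have k1 : ∀ r, K r ^ 2 ≤ P r * rwE C c r.2 := by
    intro r
    have h1 := avg_mul_sq_le C (fun z => |R (r.1, r.2, z) * b (r.1, z)|) (fun z => |c (r.2, z)|)
    have h2 : K r = avg C fun z => |R (r.1, r.2, z) * b (r.1, z)| * |c (r.2, z)| :=
      avg_congr fun z _ => by rw [← abs_mul]; ring_nf
    rw [h2]
    refine h1.trans (le_of_eq ?_)
    simp only [sq_abs]
    rfl
  have k2 : ∀ r, K r ^ 2 ≤ S r * rwE C b r.1 := by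
    intro r
    have h1 := avg_mul_sq_le C (fun z => |R (r.1, r.2, z) * c (r.2, z)|) (fun z => |b (r.1, z)|)
    have h2 : K r = avg C fun z => |R (r.1, r.2, z) * c (r.2, z)| * |b (r.1, z)| :=
      avg_congr fun z _ => by rw [← abs_mul]; ring_nf
    rw [h2]
    refine h1.trans (le_of_eq ?_)
    simp only [sq_abs]
    rfl
  set g : ℤ × ℤ → ℝ := fun r => rwE C b r.1 * rwE C c r.2 with hg
  have hg0 : ∀ r, 0 ≤ g r := fun r => mul_nonneg (rwE_nonneg _ _ _) (rwE_nonneg _ _ _)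
  have k3 : ∀ r, K r ≤ √(√(g r)) * √(√(P r) * √(S r)) := by
    intro r
    rw [← Real.sqrt_mul (Real.sqrt_nonneg _)]
    refine Real.le_sqrt_of_sq_le ?_
    rw [← Real.sqrt_mul (hP0 r), ← Real.sqrt_mul (hg0 r)]
    refine Real.le_sqrt_of_sq_le ?_
    calc (K r ^ 2) ^ 2 = K r ^ 2 * K r ^ 2 := sq _
      _ ≤ (P r * rwE C c r.2) * (S r * rwE C b r.1) :=
          mul_le_mul (k1 r) (k2 r) (sq_nonneg _)
            (mul_nonneg (hP0 r) (rwE_nonneg _ _ _))
      _ = g r * (P r * S r) := by rw [hg]; ring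
  -- the average
  set X : ℝ := avg (A ×ˢ B) fun r => |a r| * K r with hX
  have hX0 : 0 ≤ X := avg_nonneg fun _ _ => mul_nonneg (abs_nonneg _) (hK0 _)
  have h0 : (avg (A ×ˢ B ×ˢ C) fun q => |R q * atm (a, b, c) q|) = X := by
    rw [hX, avg_box, avg_prod]
    refine avg_congr fun x _ => avg_congr fun y _ => ?_
    rw [hK]
    simp only
    rw [← avg_mul_left]
    refine avg_congr fun z _ => ?_
    rw [← abs_mul]
    unfold atm e12 e13 e23
    simp only
    ring_nf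
  rw [h0]
  have h1 : X ≤ avg (A ×ˢ B) fun r => (|a r| * √(√(g r))) * √(√(P r) * √(S r)) :=
    avg_mono fun r _ => by
      rw [mul_assoc]
      exact mul_le_mul_of_nonneg_left (k3 r) (abs_nonneg _)
  have h2 : X ^ 2 ≤ (avg (A ×ˢ B) fun r => a r ^ 2 * √(g r)) *
      avg (A ×ˢ B) fun r => √(P r) * √(S r) := by
    refine (pow_le_pow_left₀ hX0 h1 2).trans ?_
    refine (avg_mul_sq_le _ _ _).trans (le_of_eq ?_)
    congr 1
    · refine avg_congr fun r _ => ?_
      rw [mul_pow, sq_abs, Real.sq_sqrt (Real.sqrt_nonneg _)]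
    · refine avg_congr fun r _ => ?_
      rw [Real.sq_sqrt (mul_nonneg (Real.sqrt_nonneg _) (Real.sqrt_nonneg _))]
  have h3 : (avg (A ×ˢ B) fun r => a r ^ 2 * √(g r)) ^ 2 ≤
      n4 (A ×ˢ B) a ^ 4 * (n2 (A ×ˢ C) b ^ 2 * n2 (B ×ˢ C) c ^ 2) := by
    refine (avg_mul_sq_le _ _ _).trans (le_of_eq ?_)
    rw [n4_four]
    congr 1
    · exact avg_congr fun r _ => by ring
    · rw [← avg_rwE, ← avg_rwE, avg_prod]
      have : ∀ x ∈ A, (avg B fun y => √(g (x, y)) ^ 2) = rwE C b x * avg B (rwE C c) := by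
        intro x _
        rw [← avg_mul_left]
        exact avg_congr fun y _ => by rw [Real.sq_sqrt (hg0 _)]
      rw [avg_congr this, avg_mul_right']
  have h4 : (avg (A ×ˢ B) fun r => √(P r) * √(S r)) ^ 2 ≤
      (e * n2 (A ×ˢ C) b ^ 2) * (e * n2 (B ×ˢ C) c ^ 2) := by
    refine (avg_mul_sq_le _ _ _).trans ?_
    refine mul_le_mul ?_ ?_ (avg_nonneg fun _ _ => sq_nonneg _)
      (mul_nonneg he (sq_nonneg _))
    · have e1 : (avg (A ×ˢ B) fun r => √(P r) ^ 2) =
          avg A fun x => avg C fun z => b (x, z) ^ 2 * avg B fun y => R (x, y, z) ^ 2 := by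
        rw [avg_prod]
        refine avg_congr fun x _ => ?_
        rw [show (avg B fun y => √(P (x, y)) ^ 2) =
          avg B fun y => avg C fun z => (R (x, y, z) * b (x, z)) ^ 2 from
            avg_congr fun y _ => Real.sq_sqrt (hP0 _), avg_comm]
        refine avg_congr fun z _ => ?_
        rw [← avg_mul_left]
        exact avg_congr fun y _ => by ring
      rw [e1, n2_sq, avg_prod, ← avg_mul_left]
      refine avg_mono fun x hx => ?_
      rw [← avg_mul_left]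
      refine avg_mono fun z hz => ?_
      rw [mul_comm e]
      exact mul_le_mul_of_nonneg_left (hL.l2 x hx z hz) (sq_nonneg _)
    · have e1 : (avg (A ×ˢ B) fun r => √(S r) ^ 2) =
          avg B fun y => avg C fun z => c (y, z) ^ 2 * avg A fun x => R (x, y, z) ^ 2 := by
        rw [avg_prod, avg_comm]
        refine avg_congr fun y _ => ?_
        rw [show (avg A fun x => √(S (x, y)) ^ 2) =
          avg A fun x => avg C fun z => (R (x, y, z) * c (y, z)) ^ 2 from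
            avg_congr fun x _ => Real.sq_sqrt (hS0 _), avg_comm]
        refine avg_congr fun z _ => ?_
        rw [← avg_mul_left]
        exact avg_congr fun x _ => by ring
      rw [e1, n2_sq, avg_prod, ← avg_mul_left]
      refine avg_mono fun y hy => ?_
      rw [← avg_mul_left]
      refine avg_mono fun z hz => ?_
      rw [mul_comm e]
      exact mul_le_mul_of_nonneg_left (hL.l1 y hy z hz) (sq_nonneg _)
  -- conclusion
  have n4a := n4_nonneg (A ×ˢ B) a
  have n2b := n2_nonneg (A ×ˢ C) b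
  have n2c := n2_nonneg (B ×ˢ C) c
  refine (pow_le_pow_iff_left₀ hX0 (by positivity) (n := 4) (by norm_num)).1 ?_
  have h5 : X ^ 4 ≤ ((avg (A ×ˢ B) fun r => a r ^ 2 * √(g r)) *
      avg (A ×ˢ B) fun r => √(P r) * √(S r)) ^ 2 := by
    calc X ^ 4 = (X ^ 2) ^ 2 := by ring
      _ ≤ _ := pow_le_pow_left₀ (sq_nonneg _) h2 2
  refine h5.trans ?_
  rw [mul_pow]
  refine (mul_le_mul h3 h4 (sq_nonneg _) (by positivity)).trans (le_of_eq ?_)
  have h6 : √e ^ 4 = e ^ 2 := by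
    rw [show √e ^ 4 = (√e ^ 2) ^ 2 by ring, Real.sq_sqrt he]
  rw [mul_pow, h6]
  ring

/-- the bound by the energies at the first vertex -/
theorem l2_x (he : 0 ≤ e) (hL : LineB e A B C R) (u : Tri) :
    (avg (A ×ˢ B ×ˢ C) fun q => |R q * atm u q|) ^ 2 ≤
      e * n2 (B ×ˢ C) u.2.2 ^ 2 * avg A fun x => rwE B u.1 x * rwE C u.2.1 x := by
  obtain ⟨a, b, c⟩ := u
  simp only
  have h1 := avg_mul_sq_le (A ×ˢ B ×ˢ C) (fun q => |R q * e23 c q|)
    (fun q => |e12 a q * e13 b q|)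
  have h0 : (avg (A ×ˢ B ×ˢ C) fun q => |R q * atm (a, b, c) q|) =
      avg (A ×ˢ B ×ˢ C) fun q => |R q * e23 c q| * |e12 a q * e13 b q| := by
    refine avg_congr fun q _ => ?_
    rw [← abs_mul]
    unfold atm
    simp only
    ring_nf
  rw [h0]
  refine h1.trans ?_
  simp only [sq_abs]
  refine mul_le_mul ?_ (le_of_eq ?_) (avg_nonneg fun _ _ => sq_nonneg _)
    (mul_nonneg he (sq_nonneg _))
  · rw [avg_box, avg_comm, n2_sq, avg_prod, ← avg_mul_left]
    refine avg_mono fun y hy => ?_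
    rw [avg_comm, ← avg_mul_left]
    refine avg_mono fun z hz => ?_
    have : (avg A fun x => (R (x, y, z) * e23 c (x, y, z)) ^ 2) =
        c (y, z) ^ 2 * avg A fun x => R (x, y, z) ^ 2 := by
      rw [← avg_mul_left]
      exact avg_congr fun x _ => by unfold e23; ring
    rw [this, mul_comm e]
    exact mul_le_mul_of_nonneg_left (hL.l1 y hy z hz) (sq_nonneg _)
  · rw [avg_box]
    refine avg_congr fun x _ => ?_
    unfold rwE
    rw [← avg_mul_right']
    refine avg_congr fun y _ => ?_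
    rw [← avg_mul_left]
    exact avg_congr fun z _ => by unfold e12 e13; simp only; ring

end

/-! ### Permutations of the coordinates -/

section

variable {A B C : Finset ℤ} {e : ℝ} {R : ℤ × ℤ × ℤ → ℝ}

/-- transposition of the first two coordinates -/
def t12 (R : ℤ × ℤ × ℤ → ℝ) : ℤ × ℤ × ℤ → ℝ := fun q => R (q.2.1, q.1, q.2.2)

/-- transposition of the last two coordinates -/
def t23 (R : ℤ × ℤ × ℤ → ℝ) : ℤ × ℤ × ℤ → ℝ := fun q => R (q.1, q.2.2, q.2.1)

/-- transposition of the variables of an edge function -/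
def sw (d : ℤ × ℤ → ℝ) : ℤ × ℤ → ℝ := fun r => d (r.2, r.1)

/-- transposition of the first two coordinates, atoms -/
def u12 (u : Tri) : Tri := (sw u.1, u.2.2, u.2.1)

/-- transposition of the last two coordinates, atoms -/
def u23 (u : Tri) : Tri := (u.2.1, u.1, sw u.2.2)

theorem lineB_t12 (hL : LineB e A B C R) : LineB e B A C (t12 R) where
  l1 y hy z hz := hL.l2 y hy z hz
  l2 x hx z hz := hL.l1 x hx z hz
  l3 x hx y hy := hL.l3 y hy x hx

theorem lineB_t23 (hL : LineB e A B C R) : LineB e A C B (t23 R) where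
  l1 y hy z hz := hL.l1 z hz y hy
  l2 x hx z hz := hL.l3 x hx z hz
  l3 x hx y hy := hL.l2 x hx y hy

theorem avg_t12 (R : ℤ × ℤ × ℤ → ℝ) (u : Tri) :
    (avg (B ×ˢ A ×ˢ C) fun q => |t12 R q * atm (u12 u) q|) =
      avg (A ×ˢ B ×ˢ C) fun q => |R q * atm u q| := by
  rw [avg_box, avg_box, avg_comm]
  refine avg_congr fun x _ => avg_congr fun y _ => avg_congr fun z _ => ?_
  unfold t12 u12 sw atm e12 e13 e23
  simp only
  ring_nf

theorem avg_t23 (R : ℤ × ℤ × ℤ → ℝ) (u : Tri) :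
    (avg (A ×ˢ C ×ˢ B) fun q => |t23 R q * atm (u23 u) q|) =
      avg (A ×ˢ B ×ˢ C) fun q => |R q * atm u q| := by
  rw [avg_box, avg_box]
  refine avg_congr fun x _ => ?_
  rw [avg_comm]
  refine avg_congr fun y _ => avg_congr fun z _ => ?_
  unfold t23 u23 sw atm e12 e13 e23
  simp only
  ring_nf

theorem n2_sw (d : ℤ × ℤ → ℝ) : n2 (B ×ˢ A) (sw d) = n2 (A ×ˢ B) d := by
  unfold n2
  rw [avg_prod, avg_prod, avg_comm]
  rfl

theorem n4_sw (d : ℤ × ℤ → ℝ) : n4 (B ×ˢ A) (sw d) = n4 (A ×ˢ B) d := by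
  unfold n4
  rw [avg_prod, avg_prod, avg_comm]
  rfl

/-- **Level one with one `L⁴` norm (edge `13`).** -/
theorem l1_13 (he : 0 ≤ e) (hL : LineB e A B C R) (u : Tri) :
    (avg (A ×ˢ B ×ˢ C) fun q => |R q * atm u q|) ≤
      √e * (n2 (A ×ˢ B) u.1 * n4 (A ×ˢ C) u.2.1 * n2 (B ×ˢ C) u.2.2) := by
  have h := l1_12 he (lineB_t23 hL) (u23 u)
  rw [avg_t23] at h
  refine h.trans (le_of_eq ?_)
  have h1 : n2 (C ×ˢ B) (u23 u).2.2 = n2 (B ×ˢ C) u.2.2 := n2_sw _
  rw [h1]
  unfold u23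
  simp only
  ring

/-- **Level one with one `L⁴` norm (edge `23`).** -/
theorem l1_23 (he : 0 ≤ e) (hL : LineB e A B C R) (u : Tri) :
    (avg (A ×ˢ B ×ˢ C) fun q => |R q * atm u q|) ≤
      √e * (n2 (A ×ˢ B) u.1 * n2 (A ×ˢ C) u.2.1 * n4 (B ×ˢ C) u.2.2) := by
  have h := l1_13 he (lineB_t12 hL) (u12 u)
  rw [avg_t12] at h
  refine h.trans (le_of_eq ?_)
  have h1 : n2 (B ×ˢ A) (u12 u).1 = n2 (A ×ˢ B) u.1 := n2_sw _
  rw [h1]
  unfold u12
  simp only
  ring

end

/-! ### The truncation of the tall columns -/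

theorem n2_mono {X : Type*} {Q : Finset X} {f g : X → ℝ} (h : ∀ q ∈ Q, |f q| ≤ |g q|) :
    n2 Q f ≤ n2 Q g := by
  unfold n2
  exact Real.sqrt_le_sqrt (avg_mono fun q hq => sq_le_sq.2 (h q hq))

theorem n4_mono {X : Type*} {Q : Finset X} {f g : X → ℝ} (h : ∀ q ∈ Q, |f q| ≤ |g q|) :
    n4 Q f ≤ n4 Q g := by
  unfold n4
  refine Real.sqrt_le_sqrt (Real.sqrt_le_sqrt (avg_mono fun q hq => ?_))
  have h1 := pow_le_pow_left₀ (abs_nonneg _) (h q hq) 4
  rwa [← abs_pow, ← abs_pow, abs_of_nonneg (by positivity), abs_of_nonneg (by positivity)] at h1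

open Classical in
/-- the part of an edge function on the columns of energy larger than `T` -/
def tallC (T : ℝ) (A : Finset ℤ) (d : ℤ × ℤ → ℝ) : ℤ × ℤ → ℝ :=
  fun r => if T < clE A d r.2 then d r else 0

open Classical in
/-- the part of an edge function on the rows of energy larger than `T` -/
def tallR (T : ℝ) (B : Finset ℤ) (d : ℤ × ℤ → ℝ) : ℤ × ℤ → ℝ :=
  fun r => if T < rwE B d r.1 then d r else 0

open Classical in
/-- the part of an edge function on the rows of energy at most `T` -/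
def lowR (T : ℝ) (B : Finset ℤ) (d : ℤ × ℤ → ℝ) : ℤ × ℤ → ℝ :=
  fun r => if T < rwE B d r.1 then 0 else d r

theorem abs_tallC_le (T : ℝ) (A : Finset ℤ) (d : ℤ × ℤ → ℝ) (r : ℤ × ℤ) :
    |tallC T A d r| ≤ |d r| := by
  unfold tallC; split_ifs <;> simp

theorem abs_tallR_le (T : ℝ) (B : Finset ℤ) (d : ℤ × ℤ → ℝ) (r : ℤ × ℤ) :
    |tallR T B d r| ≤ |d r| := by
  unfold tallR; split_ifs <;> simp

theorem abs_lowR_le (T : ℝ) (B : Finset ℤ) (d : ℤ × ℤ → ℝ) (r : ℤ × ℤ) :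
    |lowR T B d r| ≤ |d r| := by
  unfold lowR; split_ifs <;> simp

theorem rwE_lowR_le {T : ℝ} (hT : 0 ≤ T) (B : Finset ℤ) (d : ℤ × ℤ → ℝ) (x : ℤ) :
    rwE B (lowR T B d) x ≤ T := by
  by_cases h : T < rwE B d x
  · have : rwE B (lowR T B d) x = 0 := by
      unfold rwE avg
      rw [sum_eq_zero, mul_zero]
      intro y _
      unfold lowR
      rw [if_pos h]
      norm_num
    rw [this]; exact hT
  · have : rwE B (lowR T B d) x = rwE B d x := by
      unfold rwE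
      refine avg_congr fun y _ => ?_
      unfold lowR
      simp only
      rw [if_neg h]
    rw [this]; exact not_lt.1 h

section

variable {A B C : Finset ℤ} {e : ℝ} {R : ℤ × ℤ × ℤ → ℝ}

open Classical in
/-- Markov for the tall rows -/
theorem mul_avg_ind_le {T : ℝ} (B : Finset ℤ) (g : ℤ → ℝ) (hg : ∀ y, 0 ≤ g y) :
    T * (avg B fun y => if T < g y then (1 : ℝ) else 0) ≤ avg B g := by
  rw [← avg_mul_left]
  refine avg_mono fun y _ => ?_
  split_ifs with h
  · rw [mul_one]; exact h.le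
  · rw [mul_zero]; exact hg y

open Classical in
/-- **The truncation of the tall columns.** -/
theorem col_cut (he : 0 ≤ e) (hL : LineB e A B C R) (u : Tri) {z κ : ℝ} (hz : 0 < z)
    (hκ : 1 ≤ κ) (h12 : n4 (A ×ˢ B) u.1 ≤ z * n2 (A ×ˢ B) u.1)
    (h23 : n4 (B ×ˢ C) u.2.2 ≤ z * n2 (B ×ˢ C) u.2.2) :
    (avg (A ×ˢ B ×ˢ C) fun q =>
      |R q * atm (tallC (κ ^ 6 * z ^ 2 * n2 (A ×ˢ B) u.1 ^ 2) A u.1, u.2.1, u.2.2) q|) ≤
      2 * √e * (z * (n2 (A ×ˢ B) u.1 * n2 (A ×ˢ C) u.2.1 * n2 (B ×ˢ C) u.2.2)) / κ := by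
  obtain ⟨a, b, c⟩ := u
  simp only at *
  set N1 := n2 (A ×ˢ B) a with hN1
  set N2 := n2 (A ×ˢ C) b with hN2
  set N3 := n2 (B ×ˢ C) c with hN3
  have hN10 : 0 ≤ N1 := n2_nonneg _ _
  have hN20 : 0 ≤ N2 := n2_nonneg _ _
  have hN30 : 0 ≤ N3 := n2_nonneg _ _
  have hκ0 : 0 < κ := lt_of_lt_of_le one_pos hκ
  have hse : 0 ≤ √e := Real.sqrt_nonneg _
  set T := κ ^ 6 * z ^ 2 * N1 ^ 2 with hT
  set a' := tallC T A a with ha'
  have hn2a' : n2 (A ×ˢ B) a' ≤ N1 := n2_mono fun r _ => abs_tallC_le _ _ _ r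
  have hn4c : n4 (B ×ˢ C) c ≤ z * N3 := h23
  have hrhs : 0 ≤ 2 * √e * (z * (N1 * N2 * N3)) / κ := by positivity
  -- degenerate cases
  rcases hN10.eq_or_lt with h0 | h1pos
  · have h1 := l1_23 he hL (a', b, c)
    simp only at h1
    have h2 : n2 (A ×ˢ B) a' = 0 := le_antisymm (hn2a'.trans h0.symm.le) (n2_nonneg _ _)
    rw [h2, zero_mul, zero_mul, mul_zero] at h1
    exact h1.trans hrhs
  rcases hN20.eq_or_lt with h0 | h2pos
  · have h1 := l1_23 he hL (a', b, c)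
    simp only at h1
    rw [← hN2, ← h0, mul_zero, zero_mul, mul_zero] at h1
    exact h1.trans hrhs
  -- the tall columns carry few points
  set ty : ℤ → ℝ := fun y => if T < clE A a y then (1 : ℝ) else 0 with hty
  have hty0 : ∀ y, 0 ≤ ty y := fun y => by rw [hty]; simp only; split_ifs <;> norm_num
  have hty2 : ∀ y, ty y ^ 2 = ty y := fun y => by rw [hty]; simp only; split_ifs <;> norm_num
  have hTy : T * avg B ty ≤ N1 ^ 2 := by
    refine (mul_avg_ind_le B (clE A a) (clE_nonneg A a)).trans (le_of_eq ?_)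
    rw [avg_clE]
  set al := rwE B a' with hal
  have hal0 : ∀ x, 0 ≤ al x := rwE_nonneg _ _
  have hal2 : ∀ x, al x ^ 2 ≤ avg B ty * avg B fun y => a (x, y) ^ 4 := by
    intro x
    have h1 := avg_mul_sq_le B ty fun y => a (x, y) ^ 2
    have h2 : al x = avg B fun y => ty y * a (x, y) ^ 2 := by
      rw [hal]
      unfold rwE
      refine avg_congr fun y _ => ?_
      rw [ha', hty]
      unfold tallC
      simp only
      split_ifs <;> simp
    rw [h2]
    refine h1.trans (le_of_eq ?_)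
    congr 1
    · exact avg_congr fun y _ => hty2 y
    · exact avg_congr fun y _ => by ring
  have hA2 : avg A (fun x => al x ^ 2) ≤ avg B ty * n4 (A ×ˢ B) a ^ 4 := by
    rw [n4_four, avg_prod, ← avg_mul_left]
    exact avg_mono fun x _ => hal2 x
  have hn4a : n4 (A ×ˢ B) a ^ 4 ≤ z ^ 4 * N1 ^ 4 := by
    rw [← mul_pow]
    exact pow_le_pow_left₀ (n4_nonneg _ _) h12 4
  have hA3 : κ ^ 6 * avg A (fun x => al x ^ 2) ≤ z ^ 2 * N1 ^ 4 := by
    have h1 : κ ^ 6 * avg A (fun x => al x ^ 2) ≤ κ ^ 6 * (avg B ty * (z ^ 4 * N1 ^ 4)) := by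
      refine mul_le_mul_of_nonneg_left (hA2.trans ?_) (by positivity)
      exact mul_le_mul_of_nonneg_left hn4a (avg_nonneg fun _ _ => hty0 _)
    refine h1.trans ?_
    have h2 : κ ^ 6 * (avg B ty * (z ^ 4 * N1 ^ 4)) = (T * avg B ty) * (z ^ 2 * N1 ^ 2) := by
      rw [hT]; ring
    rw [h2]
    calc (T * avg B ty) * (z ^ 2 * N1 ^ 2) ≤ N1 ^ 2 * (z ^ 2 * N1 ^ 2) :=
          mul_le_mul_of_nonneg_right hTy (by positivity)
      _ = z ^ 2 * N1 ^ 4 := by ring
  -- the split of the second edge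
  set T2 := z ^ 2 * N2 ^ 2 / κ ^ 2 with hT2
  have hT20 : 0 ≤ T2 := by positivity
  set tx : ℤ → ℝ := fun x => if T2 < rwE C b x then (1 : ℝ) else 0 with htx
  have htx0 : ∀ y, 0 ≤ tx y := fun y => by rw [htx]; simp only; split_ifs <;> norm_num
  have htx2 : ∀ y, tx y ^ 2 = tx y := fun y => by rw [htx]; simp only; split_ifs <;> norm_num
  have hTx : z ^ 2 * avg A tx ≤ κ ^ 2 := by
    have h1 : T2 * avg A tx ≤ N2 ^ 2 :=
      (mul_avg_ind_le A (rwE C b) (rwE_nonneg C b)).trans (le_of_eq (avg_rwE _ _ _))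
    have h2 : N2 ^ 2 * (z ^ 2 * avg A tx) ≤ N2 ^ 2 * κ ^ 2 := by
      have h3 : T2 * avg A tx * κ ^ 2 = N2 ^ 2 * (z ^ 2 * avg A tx) := by
        rw [hT2]; field_simp
      rw [← h3]
      exact mul_le_mul_of_nonneg_right h1 (by positivity)
    exact le_of_mul_le_mul_left h2 (by positivity)
  set M := avg A fun x => tx x * al x with hM
  have hM0 : 0 ≤ M := avg_nonneg fun x _ => mul_nonneg (htx0 x) (hal0 x)
  have hM1 : κ ^ 2 * M ≤ N1 ^ 2 := by
    have h1 := avg_mul_sq_le A tx al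
    have h2 : (avg A fun x => tx x ^ 2) = avg A tx := avg_congr fun x _ => htx2 x
    rw [h2] at h1
    have h3 : (κ ^ 2 * M) ^ 2 ≤ (N1 ^ 2) ^ 2 := by
      have h4 : (κ ^ 6 * z ^ 2) * M ^ 2 ≤ κ ^ 2 * (z ^ 2 * N1 ^ 4) := by
        calc (κ ^ 6 * z ^ 2) * M ^ 2 ≤ (κ ^ 6 * z ^ 2) *
              (avg A tx * avg A fun x => al x ^ 2) :=
              mul_le_mul_of_nonneg_left h1 (by positivity)
          _ = (z ^ 2 * avg A tx) * (κ ^ 6 * avg A fun x => al x ^ 2) := by ring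
          _ ≤ κ ^ 2 * (z ^ 2 * N1 ^ 4) := by
              refine mul_le_mul hTx hA3 ?_ (by positivity)
              exact mul_nonneg (by positivity) (avg_nonneg fun _ _ => sq_nonneg _)
      have h5 : (κ ^ 2 * z ^ 2) * (κ ^ 2 * M) ^ 2 ≤ (κ ^ 2 * z ^ 2) * (N1 ^ 2) ^ 2 := by
        calc (κ ^ 2 * z ^ 2) * (κ ^ 2 * M) ^ 2 = (κ ^ 6 * z ^ 2) * M ^ 2 := by ring
          _ ≤ κ ^ 2 * (z ^ 2 * N1 ^ 4) := h4
          _ = _ := by ring
      exact le_of_mul_le_mul_left h5 (by positivity)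
    exact (pow_le_pow_iff_left₀ (by positivity) (by positivity) (by norm_num)).1 h3
  -- the part on the tall rows of the second edge
  set a2 : ℤ × ℤ → ℝ := fun r => tx r.1 * a' r with ha2
  have hn2a2 : n2 (A ×ˢ B) a2 ≤ N1 / κ := by
    rw [le_div_iff₀ hκ0]
    refine (pow_le_pow_iff_left₀ (mul_nonneg (n2_nonneg _ _) hκ0.le) hN10
      (n := 2) (by norm_num)).1 ?_
    have h1 : n2 (A ×ˢ B) a2 ^ 2 = M := by
      rw [n2_sq, avg_prod, hM]
      refine avg_congr fun x _ => ?_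
      rw [hal]
      unfold rwE
      rw [← avg_mul_left]
      refine avg_congr fun y _ => ?_
      rw [ha2]
      simp only
      rw [mul_pow, htx2]
    rw [mul_pow, h1, mul_comm]
    exact hM1
  have p1 : (avg (A ×ˢ B ×ˢ C) fun q => |R q * atm (a2, b, c) q|) ≤
      √e * (z * (N1 * N2 * N3)) / κ := by
    refine (l1_23 he hL (a2, b, c)).trans ?_
    simp only
    calc √e * (n2 (A ×ˢ B) a2 * N2 * n4 (B ×ˢ C) c) ≤ √e * (N1 / κ * N2 * (z * N3)) := by
          refine mul_le_mul_of_nonneg_left ?_ hse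
          refine mul_le_mul (mul_le_mul_of_nonneg_right hn2a2 hN20) hn4c (n4_nonneg _ _)
            (by positivity)
      _ = √e * (z * (N1 * N2 * N3)) / κ := by ring
  -- the rest
  set b2 := lowR T2 C b with hb2
  have p2 : (avg (A ×ˢ B ×ˢ C) fun q => |R q * atm (a', b2, c) q|) ≤
      √e * (z * (N1 * N2 * N3)) / κ := by
    have h1 := l2_x he hL (a', b2, c)
    simp only at h1
    refine (pow_le_pow_iff_left₀ (avg_nonneg fun _ _ => abs_nonneg _) (by positivity)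
      (n := 2) (by norm_num)).1 (h1.trans ?_)
    have h2 : (avg A fun x => rwE B a' x * rwE C b2 x) ≤ N1 ^ 2 * T2 := by
      calc (avg A fun x => rwE B a' x * rwE C b2 x) ≤ avg A fun x => T2 * rwE B a' x :=
            avg_mono fun x _ => by
              rw [mul_comm T2]
              exact mul_le_mul_of_nonneg_left (rwE_lowR_le hT20 C b x) (rwE_nonneg _ _ _)
        _ = T2 * n2 (A ×ˢ B) a' ^ 2 := by rw [avg_mul_left, avg_rwE]
        _ ≤ T2 * N1 ^ 2 := mul_le_mul_of_nonneg_left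
              (pow_le_pow_left₀ (n2_nonneg _ _) hn2a' 2) hT20
        _ = N1 ^ 2 * T2 := mul_comm _ _
    calc e * N3 ^ 2 * (avg A fun x => rwE B a' x * rwE C b2 x) ≤ e * N3 ^ 2 * (N1 ^ 2 * T2) :=
          mul_le_mul_of_nonneg_left h2 (by positivity)
      _ = (√e * (z * (N1 * N2 * N3)) / κ) ^ 2 := by
          rw [hT2, div_pow, mul_pow, Real.sq_sqrt he]; ring
  -- the sum
  have h3 : (avg (A ×ˢ B ×ˢ C) fun q => |R q * atm (a', b, c) q|) =
      (avg (A ×ˢ B ×ˢ C) fun q => |R q * atm (a2, b, c) q|) +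
        avg (A ×ˢ B ×ˢ C) fun q => |R q * atm (a', b2, c) q| := by
    rw [← avg_add]
    refine avg_congr fun q _ => ?_
    unfold atm e12 e13 e23
    simp only
    rw [ha2, hb2, htx]
    unfold lowR
    simp only
    split_ifs
    · simp
    · simp
  rw [h3]
  calc _ ≤ √e * (z * (N1 * N2 * N3)) / κ + √e * (z * (N1 * N2 * N3)) / κ := add_le_add p1 p2
    _ = _ := by ring

end

end

end Vale.Agent.P141.H998
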