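import Vale.Agent.P141.H998.Border
import Vale.Agent.P141.H585.Stop3
import Vale.Agent.P141.H829.Whit

/-!
# P141, line END: a static role function = one product atom per birth and scale + tiny slot + border

`pmain0`: abstract glue (births of different scales, each of them a main part plus increments).
`vt_line_root`: `H585.vt_line` with the increments summed over a cell of a larger scale.
`whit_bdc`: a Whitney cube of a cell which is smaller than `2 ^ k` is seen only by the cells of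
scale `k` at the border.
`pmain`: the glue for a finite family of atoms.
-/

namespace Vale.Agent.P141.H998

open Finset
open Vale.Agent.P141.H315 Vale.Agent.P141.H347 Vale.Agent.P141.H8 Vale.Agent.P141.H935

noncomputable section

open scoped Classical

section abstr

variable {X α : Type*} {g : Grid X} {s : Sl X α} {gd ud : ℕ → X → Prop} {L : ℕ} {x : X}

/-- the values of the nodes depend only on the values on their cells -/
def Sl.Cg (g : Grid X) (s : Sl X α) : Prop :=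
  ∀ N a a', (∀ y ∈ g.cube (s.sc N) (s.pt N), a y = a' y) → s.v N a = s.v N a'

theorem cg1 (nv : NV g α) (B C D : ℕ → X → ℝ) : (sl1 nv B C D).Cg g :=
  fun N _ _ h => nv.congr N _ _ _ _ _ _ _ _ fun y hy => ⟨h y hy, rfl, rfl, rfl⟩

theorem cg2 (nv : NV g α) (A C D : ℕ → X → ℝ) : (sl2 nv A C D).Cg g :=
  fun N _ _ h => nv.congr N _ _ _ _ _ _ _ _ fun y hy => ⟨rfl, h y hy, rfl, rfl⟩

theorem cg3 (nv : NV g α) (A B D : ℕ → X → ℝ) : (sl3 nv A B D).Cg g :=
  fun N _ _ h => nv.congr N _ _ _ _ _ _ _ _ fun y hy => ⟨rfl, rfl, h y hy, rfl⟩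

theorem cg4 (nv : NV g α) (A B C : ℕ → X → ℝ) : (sl4 nv A B C).Cg g :=
  fun N _ _ h => nv.congr N _ _ _ _ _ _ _ _ fun y hy => ⟨rfl, rfl, rfl, h y hy⟩

theorem T1_congr (hs : s.Cg g) {A A' : ℕ → X → ℝ}
    (h : ∀ k y, ud k y → ∀ z ∈ g.cube k y, A k z = A' k z) : T1 s ud A = T1 s ud A' := by
  unfold T1
  refine sum_congr rfl fun N _ => ?_
  split_ifs with hu
  · rw [hs N _ _ (h _ _ hu)]
  · rfl

/-- **The glue**: births of different scales, each of them a main part plus increments. -/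
theorem pmain0 {κ : Type*} (t : Finset κ) (r : κ → ℕ) {b : ℝ} (hb : 0 ≤ b) (hs : s.Ad)
    (hg : s.Cg g) (hB : BB g s gd ud b) (h : Rgn g gd L x ud) (Bd : ℕ → X → Prop) (P : X → ℝ)
    (p : κ → X → ℝ) (M F : κ → ℕ → X → ℝ) (hr : ∀ j ∈ t, r j ≤ L)
    (hP : ∀ y ∈ g.cube L x, P y = ∑ j ∈ t, p j y)
    (hBd : ∀ j ∈ t, ∀ k y, ud k y → r j < k → ¬ Bd k y → ∀ z ∈ g.cube k y, p j z = 0)
    (hdec : ∀ j ∈ t, ∀ k ≤ r j, ∀ z ∈ g.cube L x, p j z = M j k z + ∑ i ∈ Icc k (r j), F j i z) :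
    T1 s ud (st P) ≤ T1 s (An ud Bd) (st P) +
      T1 s (An ud fun k y => ¬ Bd k y) (fun k => ∑ j ∈ t.filter (fun j => k ≤ r j), M j k) +
      4 * b * ∑ j ∈ t, ∑ i ∈ range (r j + 1), ∑ z ∈ g.cube L x, √(en g (F j i) i z) := by
  set F' : ℕ → X → ℝ := fun i => ∑ j ∈ t, if i ≤ r j then F j i else 0 with hF'
  have e1 : T1 s (An ud fun k y => ¬ Bd k y) (st P) = T1 s (An ud fun k y => ¬ Bd k y)
      (fun k => (∑ j ∈ t.filter (fun j => k ≤ r j), M j k) + ∑ i ∈ Icc k L, F' i) := by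
    refine T1_congr hg fun k y hu z hz => ?_
    obtain ⟨hu, hnb⟩ := hu
    obtain ⟨hkL, hyL⟩ := h.bel k y hu
    have hzL : z ∈ g.cube L x := g.cube_subset hkL hyL hz
    show P z = _
    rw [hP z hzL, Pi.add_apply, Finset.sum_apply, Finset.sum_apply]
    have e2 : ∑ i ∈ Icc k L, F' i z = ∑ j ∈ t.filter (fun j => k ≤ r j),
        ∑ i ∈ Icc k (r j), F j i z := by
      have e3 : ∀ i ∈ Icc k L, F' i z = ∑ j ∈ t, if i ≤ r j then F j i z else 0 := by
        intro i _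
        show (∑ j ∈ t, if i ≤ r j then F j i else 0) z = _
        rw [Finset.sum_apply]
        exact sum_congr rfl fun j _ => by split_ifs <;> rfl
      rw [sum_congr rfl e3, sum_comm, sum_filter]
      refine sum_congr rfl fun j hj => ?_
      rw [← sum_filter]
      have hrj := hr j hj
      split_ifs with h1
      · refine sum_congr ?_ fun _ _ => rfl
        ext i
        simp only [mem_filter, mem_Icc]
        omega
      · refine sum_eq_zero fun i hi => ?_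
        simp only [mem_filter, mem_Icc] at hi
        omega
    rw [e2, ← sum_add_distrib, sum_filter]
    refine sum_congr rfl fun j hj => ?_
    split_ifs with h1
    · exact hdec j hj k h1 z hzL
    · exact hBd j hj k y hu (by omega) hnb z hz
  rw [T1_split (st P) Bd, e1]
  have e4 := T1_add (s := s) (ud := An ud fun k y => ¬ Bd k y) hs
    (fun k => ∑ j ∈ t.filter (fun j => k ≤ r j), M j k) (fun k => ∑ i ∈ Icc k L, F' i)
  have e5 := T1_mono (s := s) (ud := ud) (ud' := An ud fun k y => ¬ Bd k y)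
    (fun k => ∑ i ∈ Icc k L, F' i) (fun k y hy => hy.1)
  have e6 := ts2 hb hs hB h F'
  have e7 : ∑ i ∈ range (L + 1), ∑ z ∈ g.cube L x, (if ud i z then √(en g (F' i) i z) else 0) ≤
      ∑ j ∈ t, ∑ i ∈ range (r j + 1), ∑ z ∈ g.cube L x, √(en g (F j i) i z) := by
    have e8 : ∀ i ∈ range (L + 1), ∑ z ∈ g.cube L x,
        (if ud i z then √(en g (F' i) i z) else 0) ≤
        ∑ j ∈ t, if i ≤ r j then ∑ z ∈ g.cube L x, √(en g (F j i) i z) else 0 := by
      intro i _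
      have e9 : ∀ z ∈ g.cube L x, (if ud i z then √(en g (F' i) i z) else 0) ≤
          ∑ j ∈ t, if i ≤ r j then √(en g (F j i) i z) else 0 := by
        intro z _
        have e10 : √(en g (F' i) i z) ≤ ∑ j ∈ t, if i ≤ r j then √(en g (F j i) i z) else 0 := by
          refine (sqrt_en_sum t (fun j => if i ≤ r j then F j i else 0) i z).trans
            (le_of_eq (sum_congr rfl fun j _ => ?_))
          split_ifs
          · rfl
          · unfold en dot; simp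
        split_ifs
        · exact e10
        · exact sum_nonneg fun j _ => by split_ifs; exacts [Real.sqrt_nonneg _, le_rfl]
      refine (sum_le_sum e9).trans (le_of_eq ?_)
      rw [sum_comm]
      refine sum_congr rfl fun j _ => ?_
      split_ifs
      · rfl
      · exact sum_const_zero
    refine (sum_le_sum e8).trans (le_of_eq ?_)
    rw [sum_comm]
    refine sum_congr rfl fun j hj => ?_
    have hrj := hr j hj
    rw [← sum_filter]
    refine sum_congr ?_ fun _ _ => rfl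
    ext i
    simp only [mem_filter, mem_range]
    omega
  have e11 := mul_le_mul_of_nonneg_left e7 (by positivity : 0 ≤ 4 * b)
  linarith

end abstr

/-! ## The increments of one atom, summed over a larger cell -/

open Vale.Agent.P141.PL (Pt cx el)
open Vale.Agent.P141.PL.H315 (avg cube3 atm Tri mem_cube3)
open Vale.Agent.P141.PL.H318 (a1 csz ixs mem_gs el_diff)
open Vale.Agent.P141.PL.H95 (gr mem_gr card_gr)
open Vale.Agent.P141.H829 (vt whit ws ws_ov Ov_up ws_le)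
open Vale.Agent.P141.H585 (inc stp stp_le crn sqrt_en_sum_le sum_cells_one pwC rC VC mnA stops_vty
  a1_eq_pf pf pf_sub exists_dual a1_incr card_sides)

variable {c : Pt} {κ μ : ℝ} {K : ℕ} {q : Pt} {u v : Tri} {E1 E2 E3 : Finset ℤ}

theorem inc_vty_root {c0 : ℕ} (hc : csz c ≤ 2 ^ c0) (h1 : c.1 ≠ 0) (h2 : c.2.1 ≠ 0)
    (h3 : c.2.2 ≠ 0) (hκ : 0 < κ) (hμ : 0 < μ) (hv : VC κ K q u v E1 E2 E3) {L : ℕ} (hL : K ≤ L)
    (s x : ℤ) :
    ∑ i ∈ range (K + 1), ∑ z ∈ (gr c0 s).cube L x,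
      √(en (gr c0 s) (inc c (μ / rC K q u ^ 2) E1 E2 E3 K q v i) i z) ≤
      √(2 * 2 ^ c0) * (8 * (pwC K q u * 8 ^ K) / (κ ^ 12 * √μ)) := by
  set θ := μ / rC K q u ^ 2 with hθ
  have hκ12 : 0 < κ ^ 12 * √μ := by
    have := Real.sqrt_pos.mpr hμ
    positivity
  have hB : ∑ σ ∈ stp θ E1 E2 E3 K (cx K q), √(2 ^ σ.1) *
      √(dot ((gr c0 s).cube L x) (a1 c σ.1 (crn σ, v)) (a1 c σ.1 (crn σ, v))) ≤
      8 * (pwC K q u * 8 ^ K) / (κ ^ 12 * √μ) := by
    rw [le_div_iff₀ hκ12, mul_comm]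
    exact stops_vty h1 h2 h3 hκ hμ hv _
  have h4 : ∀ i ∈ range (K + 1), ∑ z ∈ (gr c0 s).cube L x,
      √(en (gr c0 s) (inc c θ E1 E2 E3 K q v i) i z) ≤
      ∑ σ ∈ (stp θ E1 E2 E3 K (cx K q)).filter (fun σ => σ.1 = i), √(2 * 2 ^ c0) * (√(2 ^ σ.1) *
      √(dot ((gr c0 s).cube L x) (a1 c σ.1 (crn σ, v)) (a1 c σ.1 (crn σ, v)))) := by
    intro i hi
    have hiL : i ≤ L := by have := mem_range.mp hi; omega
    have h5 : ∀ z ∈ (gr c0 s).cube L x, √(en (gr c0 s) (inc c θ E1 E2 E3 K q v i) i z) ≤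
        ∑ σ ∈ (stp θ E1 E2 E3 K (cx K q)).filter (fun σ => σ.1 = i),
          √(en (gr c0 s) (a1 c σ.1 (crn σ, v)) i z) := by
      intro z _
      unfold inc
      exact sqrt_en_sum_le _ _ _ _ _
    refine (sum_le_sum h5).trans ?_
    rw [sum_comm]
    refine sum_le_sum fun σ hσ => ?_
    rw [mem_filter] at hσ
    obtain ⟨_, rfl⟩ := hσ
    have h6 := sum_cells_one (s := s) hc hiL x (crn σ) (atm v)
    rw [← a1_eq_pf] at h6
    refine h6.trans (le_of_eq ?_)
    have h7 : √(2 * 2 ^ (σ.1 + c0) : ℝ) = √(2 * 2 ^ c0) * √(2 ^ σ.1) := by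
      rw [← Real.sqrt_mul (by positivity)]
      congr 1
      rw [pow_add]; ring
    rw [h7]; ring
  refine (sum_le_sum h4).trans ?_
  rw [sum_fiberwise_of_maps_to (s := stp θ E1 E2 E3 K (cx K q)) (t := range (K + 1))
    (g := fun σ => σ.1) (fun σ hσ => mem_range.mpr (by have := stp_le hσ; omega)), ← mul_sum]
  exact mul_le_mul_of_nonneg_left hB (Real.sqrt_nonneg _)

/-- **`H585.vt_line`, increments summed over a cell of a larger scale.** -/
theorem vt_line_root {c0 : ℕ} (hc : csz c ≤ 2 ^ c0) (h1 : c.1 ≠ 0) (h2 : c.2.1 ≠ 0)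
    (h3 : c.2.2 ≠ 0) (hκ : 0 < κ) (hμ : 0 < μ) (K : ℕ) (q : Pt) (u : Tri) :
    ∃ (v : Tri) (E1 E2 E3 : Finset ℤ) (F : ℕ → ℤ → ℝ), VC κ K q u v E1 E2 E3 ∧
      (∀ k ≤ K, a1 c K (q, u) = a1 c K (q, mnA (μ / rC K q u ^ 2) E1 E2 E3 K k v) +
        ∑ i ∈ Icc k K, F i) ∧
      ∀ L, K ≤ L → ∀ s x : ℤ,
        ∑ i ∈ range (K + 1), ∑ z ∈ (gr c0 s).cube L x, √(en (gr c0 s) (F i) i z) ≤
          √(2 * 2 ^ c0) * ((6 * κ + 8 / (κ ^ 12 * √μ)) * (pwC K q u * 8 ^ K)) := by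
  obtain ⟨v, E1, E2, E3, hv, hT⟩ := vt (A := PL.H315.iv K q.1) (B := PL.H315.iv K q.2.1)
    (C := PL.H315.iv K q.2.2) hκ u
  set θ := μ / rC K q u ^ 2 with hθ
  set D : ℤ → ℝ := pf c K q (fun y => atm u y - atm v y) with hD
  have hDe : D = a1 c K (q, u) - a1 c K (q, v) := by
    rw [hD, pf_sub, a1_eq_pf, a1_eq_pf]
  refine ⟨v, E1, E2, E3, fun i => inc c θ E1 E2 E3 K q v i + if i = K then D else 0, hv, ?_, ?_⟩
  · intro k hk
    have e1 := a1_incr c (θ := θ) hv.sup12 hv.sup13 K k q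
    rw [sum_add_distrib]
    have e2 : ∑ i ∈ Icc k K, (if i = K then D else 0) = D := by
      rw [sum_ite_eq' (Icc k K) K (fun _ => D), if_pos (mem_Icc.mpr ⟨hk, le_rfl⟩)]
    rw [e2, ← add_assoc, ← e1, hDe]
    abel
  · intro L hL s x
    have hc0 : (0 : ℝ) ≤ √(2 * 2 ^ c0) := Real.sqrt_nonneg _
    have e3 := inc_vty_root hc h1 h2 h3 hκ hμ hv hL s x
    -- the difference
    have e4 : √(2 ^ K) * √(dot ((gr c0 s).cube L x) D D) ≤ 6 * κ * (pwC K q u * 8 ^ K) := by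
      obtain ⟨R, hR, hs⟩ := exists_dual h1 h2 h3 (e := 1) zero_le_one K q
        (fun y => atm u y - atm v y) ((gr c0 s).cube L x)
      rw [one_mul, ← hD] at hs
      rw [hs]
      have e5 := hT 1 (fun y => R (el c y)) zero_le_one hR
      rw [Real.sqrt_one, mul_one] at e5
      unfold avg at e5
      have hcard : (((PL.H315.iv K q.1) ×ˢ (PL.H315.iv K q.2.1) ×ˢ
          (PL.H315.iv K q.2.2)).card : ℝ) = 8 ^ K := by
        rw [card_product, card_product]; push_cast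
        rw [← card_sides K q]; ring
      rw [hcard, inv_mul_le_iff₀ (by positivity)] at e5
      calc ∑ y ∈ cube3 K q, R (el c y) * (atm u y - atm v y) ≤
            ∑ y ∈ cube3 K q, |R (el c y) * (atm u y - atm v y)| :=
            sum_le_sum fun y _ => le_abs_self _
        _ ≤ 8 ^ K * (6 * κ * pwC K q u) := e5
        _ = _ := by ring
    have e6 : ∑ z ∈ (gr c0 s).cube L x, √(en (gr c0 s) D K z) ≤
        √(2 * 2 ^ c0) * (6 * κ * (pwC K q u * 8 ^ K)) := by
      have e7 := sum_cells_one (s := s) hc hL x q (fun y => atm u y - atm v y)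
      rw [← hD] at e7
      refine e7.trans ?_
      have h5 : √(2 * 2 ^ (K + c0) : ℝ) = √(2 * 2 ^ c0) * √(2 ^ K) := by
        rw [← Real.sqrt_mul (by positivity)]
        congr 1
        rw [pow_add]; ring
      rw [h5, mul_assoc]
      exact mul_le_mul_of_nonneg_left e4 hc0
    have e8 : ∀ i ∈ range (K + 1), ∑ z ∈ (gr c0 s).cube L x,
        √(en (gr c0 s) (inc c θ E1 E2 E3 K q v i + if i = K then D else 0) i z) ≤
        ∑ z ∈ (gr c0 s).cube L x, √(en (gr c0 s) (inc c θ E1 E2 E3 K q v i) i z) +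
          if i = K then ∑ z ∈ (gr c0 s).cube L x, √(en (gr c0 s) D K z) else 0 := by
      intro i _
      by_cases hi : i = K
      · subst hi
        simp only [if_true]
        rw [← sum_add_distrib]
        refine sum_le_sum fun z _ => ?_
        have := sqrt_en_sum_le (gr c0 s) (univ : Finset (Fin 2))
          ![inc c θ E1 E2 E3 i q v i, D] i z
        simpa [Fin.sum_univ_two] using this
      · simp only [hi, if_false, add_zero]
        exact le_rfl
    refine (sum_le_sum e8).trans ?_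
    rw [sum_add_distrib, sum_ite_eq' (range (K + 1)) K, if_pos (mem_range.mpr (Nat.lt_succ_self K))]
    calc _ ≤ √(2 * 2 ^ c0) * (8 * (pwC K q u * 8 ^ K) / (κ ^ 12 * √μ)) +
          √(2 * 2 ^ c0) * (6 * κ * (pwC K q u * 8 ^ K)) := add_le_add e3 e6
      _ = _ := by ring

/-! ## Small Whitney cubes are seen only by the border cells -/

theorem ixs_eq_lo {s : ℤ} {k : ℕ} {y : ℤ} : lo s k y = 2 ^ (k + 7) * ixs 7 s k y - s := rfl

/-- a point of a cell with a point outside of the cell at distance less than `2 ^ (k + 7)` -/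
theorem bdc_of_near {s : ℤ} {L k : ℕ} (hk : k ≤ L) {x a b : ℤ} (ha : a ∈ (gr 7 s).cube L x)
    (hb : b ∉ (gr 7 s).cube L x) (hab : |a - b| < 2 ^ (k + 7)) : Bdc s L x k a := by
  have h1 := mem_lo.1 ha
  have h2 := mem_lo.1 ((gr 7 s).mem k a)
  have hpos : (0 : ℤ) < 2 ^ (k + 7) := by positivity
  obtain ⟨n, hn⟩ : ∃ n : ℕ, L = k + n := ⟨L - k, by omega⟩
  -- the left end of the cell of scale `k` is on the grid of the left end of the root
  obtain ⟨m, hm⟩ : ∃ m : ℤ, lo s k a = lo s L x + 2 ^ (k + 7) * m := by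
    refine ⟨(a + s) / 2 ^ (k + 7) - 2 ^ n * ((x + s) / 2 ^ (L + 7)), ?_⟩
    unfold lo
    have : (2 : ℤ) ^ (L + 7) = 2 ^ (k + 7) * 2 ^ n := by rw [hn]; ring
    rw [this]
    ring
  have hL : (2 : ℤ) ^ (L + 7) = 2 ^ (k + 7) * 2 ^ n := by rw [hn]; ring
  rw [mem_lo, not_and_or] at hb
  rcases abs_lt.1 hab with ⟨h3, h4⟩
  have hm0 : 0 ≤ m := by
    by_contra hneg
    have : m ≤ -1 := by omega
    nlinarith
  have hm1 : m + 1 ≤ 2 ^ n := by
    by_contra hneg
    have : (2 : ℤ) ^ n ≤ m := by omega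
    nlinarith
  rcases hb with h5 | h5
  · left
    have : m = 0 := by
      by_contra hne
      have : 1 ≤ m := by omega
      nlinarith
    rw [hm, this, mul_zero, add_zero]
  · right
    push Not at h5
    have : m + 1 = 2 ^ n := by
      by_contra hne
      have : m + 2 ≤ 2 ^ n := by omega
      nlinarith
    rw [hm, hL, ← this]
    ring

/-- **A Whitney cube smaller than `2 ^ k` is seen only by border cells of the scale `k`.** -/
theorem whit_bdc {σ : ℤ} (hc : csz c ≤ 2 ^ 7) {l L k : ℕ} (hkL : k ≤ L) (hL : L ≤ l) {s : ℤ}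
    {b : ℕ × Pt} (hb : b ∈ whit 7 σ c l q L s) (hbk : b.1 < k) {y : Pt}
    (hy : y ∈ cube3 b.1 b.2) : Bdc σ L s k (el c y) := by
  have h1 := H829.whit_ws hb hy
  have h2 : ixs 7 σ L (el c y) = ixs 7 σ L s := H829.whit_over hb hy
  rw [H829.ws_eq hL] at h1
  -- the cube of scale `k` is not over the cell
  have h3 : ¬ Ov 7 σ c L k y := fun h4 => by
    have := le_whs (k := L) hkL h4
    omega
  unfold Ov at h3
  push Not at h3
  obtain ⟨y', hy', hne⟩ := h3
  have h4 : el c y ∈ (gr 7 σ).cube L s := mem_gs.mpr h2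
  have h5 : el c y' ∉ (gr 7 σ).cube L s := fun h6 => hne (by rw [mem_gs.mp h6, h2])
  refine bdc_of_near hkL h4 h5 ?_
  have h6 := el_diff (c := c) (PL.H315.gz.mem k y) hy'
  refine h6.trans_lt ?_
  have h7 : (1 : ℤ) ≤ 2 ^ k := one_le_pow₀ (by norm_num)
  have h8 : csz c * (2 ^ k - 1) ≤ 2 ^ 7 * (2 ^ k - 1) :=
    mul_le_mul_of_nonneg_right hc (by linarith)
  have h9 : (2 : ℤ) ^ (k + 7) = 2 ^ 7 * 2 ^ k := by ring
  rw [h9]
  linarith

/-! ## The glue -/

variable {α : Type*}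

/-- **PMain.** A static role function which is on the root cell a finite sum of atoms `u j` of the
scales `r j`, small atoms seen only by the border cells. -/
theorem pmain {ι : Type*} {s : ℤ} {gd ud : ℕ → ℤ → Prop} {L : ℕ} {x : ℤ} (t : Finset ι)
    (r : ι → ℕ) (q : ι → Pt) (u : ι → Tri) (cf : ι → ℝ) (hr : ∀ j ∈ t, r j ≤ L)
    (hbd : ∀ j ∈ t, ∀ k, r j < k → k ≤ L → ∀ y ∈ cube3 (r j) (q j), Bdc s L x k (el c y))
    (P : ℤ → ℝ) (hP : ∀ z ∈ (gr 7 s).cube L x, P z = ∑ j ∈ t, cf j * a1 c (r j) (q j, u j) z)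
    (hc : csz c ≤ 2 ^ 7) (h1 : c.1 ≠ 0) (h2 : c.2.1 ≠ 0) (h3 : c.2.2 ≠ 0) (hκ : 0 < κ)
    (hμ : 0 < μ) :
    ∃ (v : ι → Tri) (E1 E2 E3 : ι → Finset ℤ),
      (∀ j, VC κ (r j) (q j) (u j) (v j) (E1 j) (E2 j) (E3 j)) ∧
      ∀ (sl : Sl ℤ α) (b : ℝ), 0 ≤ b → sl.Ad → sl.Cg (gr 7 s) → BB (gr 7 s) sl gd ud b →
        Rgn (gr 7 s) gd L x ud →
        T1 sl ud (st P) ≤ T1 sl (An ud (Bdc s L x)) (st P) +
          T1 sl (An ud fun k y => ¬ Bdc s L x k y) (fun k => ∑ j ∈ t.filter (fun j => k ≤ r j),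
            cf j • a1 c (r j) (q j, mnA (μ / rC (r j) (q j) (u j) ^ 2) (E1 j) (E2 j) (E3 j)
              (r j) k (v j))) +
          4 * b * (16 * (6 * κ + 8 / (κ ^ 12 * √μ)) *
            ∑ j ∈ t, |cf j| * (pwC (r j) (q j) (u j) * 8 ^ r j)) := by
  choose v E1 E2 E3 F hv hF hs using fun j : ι =>
    vt_line_root (c0 := 7) hc h1 h2 h3 hκ hμ (r j) (q j) (u j)
  refine ⟨v, E1, E2, E3, hv, fun sl b hb had hcg hB hR => ?_⟩
  have key := pmain0 t r hb had hcg hB hR (Bdc s L x) P (fun j => cf j • a1 c (r j) (q j, u j))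
    (fun j k => cf j • a1 c (r j) (q j, mnA (μ / rC (r j) (q j) (u j) ^ 2) (E1 j) (E2 j) (E3 j)
      (r j) k (v j))) (fun j i => cf j • F j i) hr (fun z hz => by rw [hP z hz]; rfl) ?_ ?_
  · refine key.trans ?_
    have e1 : ∀ j ∈ t, ∑ i ∈ range (r j + 1), ∑ z ∈ (gr 7 s).cube L x,
        √(en (gr 7 s) (cf j • F j i) i z) ≤
        16 * (6 * κ + 8 / (κ ^ 12 * √μ)) * (|cf j| * (pwC (r j) (q j) (u j) * 8 ^ r j)) := by
      intro j hj
      have e2 : ∀ i z, √(en (gr 7 s) (cf j • F j i) i z) =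
          |cf j| * √(en (gr 7 s) (F j i) i z) := by
        intro i z
        have e3 : en (gr 7 s) (cf j • F j i) i z = cf j ^ 2 * en (gr 7 s) (F j i) i z := by
          unfold en dot
          rw [← mul_div_assoc, mul_sum]
          congr 1
          refine sum_congr rfl fun y _ => ?_
          simp only [Pi.smul_apply, smul_eq_mul]
          ring
        rw [e3, Real.sqrt_mul (sq_nonneg _), Real.sqrt_sq_eq_abs]
      simp_rw [e2, ← mul_sum]
      have e4 := mul_le_mul_of_nonneg_left (hs j L (hr j hj) s x) (abs_nonneg (cf j))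
      refine e4.trans (le_of_eq ?_)
      have e5 : √(2 * 2 ^ 7 : ℝ) = 16 := by
        rw [show (2 * 2 ^ 7 : ℝ) = 16 ^ 2 by norm_num, Real.sqrt_sq (by norm_num)]
      rw [e5]
      ring
    have e6 := sum_le_sum e1
    rw [← mul_sum] at e6
    have e7 := mul_le_mul_of_nonneg_left e6 (by positivity : 0 ≤ 4 * b)
    linarith
  · intro j hj k y hu hlt hnb z hz
    show cf j * a1 c (r j) (q j, u j) z = 0
    have e8 : a1 c (r j) (q j, u j) z = 0 := by
      unfold a1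
      refine sum_eq_zero fun y' hy' => if_neg fun he => hnb ?_
      have e9 := hbd j hj k hlt (hR.bel k y hu).1 y' hy'
      rw [he] at e9
      exact (bdc_const s L x k y z hz).1 e9
    rw [e8, mul_zero]
  · intro j _ k hk z _
    have e10 := congrFun (hF j k hk) z
    simp only [Pi.smul_apply, smul_eq_mul, Pi.add_apply, Finset.sum_apply] at e10 ⊢
    rw [e10, mul_add, mul_sum]

open Vale.Agent.P141.H610 (BoxHyp)
open Vale.Agent.P141.PL.H855 (N4)

/-- **PMain for the END configuration**: static role function, static uniform function, two block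
slots of energy `e` and packing `K`; the tiny slot and the border are paid by the black box. -/
theorem pmain_end {ι : Type*} {s : ℤ} {gd ud : ℕ → ℤ → Prop} {L : ℕ} {x : ℤ} (t : Finset ι)
    (r : ι → ℕ) (q : ι → Pt) (u : ι → Tri) (cf : ι → ℝ) (hr : ∀ j ∈ t, r j ≤ L)
    (hbd : ∀ j ∈ t, ∀ k, r j < k → k ≤ L → ∀ y ∈ cube3 (r j) (q j), Bdc s L x k (el c y))
    (P : ℤ → ℝ) (hP : ∀ z ∈ (gr 7 s).cube L x, P z = ∑ j ∈ t, cf j * a1 c (r j) (q j, u j) z)
    (hc : csz c ≤ 2 ^ 7) (h1 : c.1 ≠ 0) (h2 : c.2.1 ≠ 0) (h3 : c.2.2 ≠ 0) (hκ : 0 < κ)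
    (hμ : 0 < μ) :
    ∃ (v : ι → Tri) (E1 E2 E3 : ι → Finset ℤ),
      (∀ j, VC κ (r j) (q j) (u j) (v j) (E1 j) (E2 j) (E3 j)) ∧
      ∀ (nv : N4 (gr 7 s) α) (CP : ℝ) (σ : Equiv.Perm (Fin 4)) (G1 : ℤ → ℝ) (tt : ℕ → ℤ → ℕ)
        (W : Fin 2 → ℕ → ℤ → ℝ) (eP eG e Kp : ℝ), 0 ≤ CP → BoxHyp nv gd CP →
        Rgn (gr 7 s) gd L x ud → 0 < eP → 0 < eG → 0 < e → 1 ≤ Kp → En (gr 7 s) ud P eP →
        En (gr 7 s) ud G1 eG → Fam2 (gr 7 s) ud L tt W e Kp →
        T4 (nv.toNV σ) ud (st P) (st G1) (mv tt (W 0)) (mv tt (W 1)) ≤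
          T4 (nv.toNV σ) (An ud fun k y => ¬ Bdc s L x k y)
            (fun k => ∑ j ∈ t.filter (fun j => k ≤ r j),
              cf j • a1 c (r j) (q j, mnA (μ / rC (r j) (q j) (u j) ^ 2) (E1 j) (E2 j) (E3 j)
                (r j) k (v j))) (st G1) (mv tt (W 0)) (mv tt (W 1)) +
          CP * √eG * e * (64 * (68 * 10 ^ 4) * Kp * (6 * κ + 8 / (κ ^ 12 * √μ)) *
            ∑ j ∈ t, |cf j| * (pwC (r j) (q j) (u j) * 8 ^ r j) +
            68 ^ 4 / 32 * √eP * cd (gr 7 s) L x) := by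
  obtain ⟨v, E1, E2, E3, hv, H⟩ := pmain (α := α) (ud := ud) (gd := gd) t r q u cf hr hbd P hP hc
    h1 h2 h3 hκ hμ
  refine ⟨v, E1, E2, E3, hv, fun nv CP σ G1 tt W eP eG e Kp hCP hb hR heP heG he hK hPe hGe hW => ?_⟩
  have hBB := bb1 (ud := ud) hCP hb σ (by positivity) (by positivity) (by positivity)
    (slR_st (s := s) (gd := gd) heG hGe) (slR_fam hR he hK hW 0) (slR_fam hR he hK hW 1)
  have k1 := H (sl1 (nv.toNV σ) (st G1) (mv tt (W 0)) (mv tt (W 1))) _ (by positivity)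
    (ad1 _ _ _ _) (cg1 _ _ _ _) hBB hR
  have hmv : ∀ j k y, ud k y → dot ((gr 7 s).cube k y) (mv tt (W j) k) (mv tt (W j) k) ≤
      e * cd (gr 7 s) k y := by
    intro j k y hu
    refine le_trans (le_of_eq ?_) (hW.en j k y hu)
    unfold dot mv
    exact sum_congr rfl fun z hz => by rw [hW.lab.const k (hR.bel k y hu).1 y z hz]
  have k2 := T4_border (A := st P) (B := st G1) hCP hb σ hR heP heG he he
    (fun k y hu => hPe k y hu) (fun k y hu => hGe k y hu) (hmv 0) (hmv 1)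
  have e1 : √(eP * eG * e * e) = √eP * √eG * e := by
    rw [mul_assoc (eP * eG), Real.sqrt_mul (by positivity), Real.sqrt_mul heP.le,
      Real.sqrt_mul_self he.le]
  have e2 : √(e * Kp) * √(e * Kp) = e * Kp := Real.mul_self_sqrt (by positivity)
  rw [e1] at k2
  refine k1.trans ?_
  have e3 : 4 * (CP * (68 * √eG * (100 * √(e * Kp)) * (100 * √(e * Kp)))) *
      (16 * (6 * κ + 8 / (κ ^ 12 * √μ)) * ∑ j ∈ t, |cf j| * (pwC (r j) (q j) (u j) * 8 ^ r j)) =
      CP * √eG * e * (64 * (68 * 10 ^ 4) * Kp * (6 * κ + 8 / (κ ^ 12 * √μ)) *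
        ∑ j ∈ t, |cf j| * (pwC (r j) (q j) (u j) * 8 ^ r j)) := by
    have : 4 * (CP * (68 * √eG * (100 * √(e * Kp)) * (100 * √(e * Kp)))) =
        CP * √eG * (4 * 68 * 10 ^ 4) * (√(e * Kp) * √(e * Kp)) := by ring
    rw [this, e2]
    ring
  have e4 : T1 (sl1 (nv.toNV σ) (st G1) (mv tt (W 0)) (mv tt (W 1))) (An ud (Bdc s L x)) (st P) =
    T4 (nv.toNV σ) (An ud (Bdc s L x)) (st P) (st G1) (mv tt (W 0)) (mv tt (W 1)) := rfl
  rw [e3, e4]
  have e5 : T1 (sl1 (nv.toNV σ) (st G1) (mv tt (W 0)) (mv tt (W 1)))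
      (An ud fun k y => ¬ Bdc s L x k y) (fun k => ∑ j ∈ t.filter (fun j => k ≤ r j),
        cf j • a1 c (r j) (q j, mnA (μ / rC (r j) (q j) (u j) ^ 2) (E1 j) (E2 j) (E3 j)
          (r j) k (v j))) =
      T4 (nv.toNV σ) (An ud fun k y => ¬ Bdc s L x k y)
        (fun k => ∑ j ∈ t.filter (fun j => k ≤ r j),
          cf j • a1 c (r j) (q j, mnA (μ / rC (r j) (q j) (u j) ^ 2) (E1 j) (E2 j) (E3 j)
            (r j) k (v j))) (st G1) (mv tt (W 0)) (mv tt (W 1)) := rfl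
  rw [e5]
  have e6 : CP * √eG * e * (64 * (68 * 10 ^ 4) * Kp * (6 * κ + 8 / (κ ^ 12 * √μ)) *
      ∑ j ∈ t, |cf j| * (pwC (r j) (q j) (u j) * 8 ^ r j) +
      68 ^ 4 / 32 * √eP * cd (gr 7 s) L x) =
      CP * √eG * e * (64 * (68 * 10 ^ 4) * Kp * (6 * κ + 8 / (κ ^ 12 * √μ)) *
      ∑ j ∈ t, |cf j| * (pwC (r j) (q j) (u j) * 8 ^ r j)) +
      CP * 68 ^ 4 / 32 * (√eP * √eG * e) * cd (gr 7 s) L x := by ring
  rw [e6]
  linarith

end

end Vale.Agent.P141.H998
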