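import Vale.Agent.P141.H998.Tiny
import Vale.Agent.P141.H610.MovH

/-!
# P141, line END, module (E-TS), part 2: the height free static bound from the black box

`SlR s gd ud A S`: on every region inside `ud` the family `A` is a moving slot of size `S`.
`bb1` ... `bb4`: `BB` of `Tiny` for one slot of a four-linear node family, from `BoxHyp` of
`H610/MovH` and `SlR` for the three other slots.
-/

namespace Vale.Agent.P141.H998

open Finset
open Vale.Agent.P141.H315 Vale.Agent.P141.H347 Vale.Agent.P141.H8 Vale.Agent.P141.H935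
open Vale.Agent.P141.H610
open Vale.Agent.P141.PL.H95 (gr mem_gr card_gr)
open Vale.Agent.P141.PL.H855 (CBlk0 CSlot0 N4 TR T4_toNV)

noncomputable section

open scoped Classical

variable {α : Type*} {s : ℤ}

/-- on every region inside `ud` the family `A` is a moving slot of size `S` -/
def SlR (s : ℤ) (gd ud : ℕ → ℤ → Prop) (A : ℕ → ℤ → ℝ) (S : ℝ) : Prop :=
  ∀ L x ud', Rgn (gr 7 s) gd L x ud' → (∀ k y, ud' k y → ud k y) → ud' L x →
    CSlot0 s L (cutR ud' A) S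

variable {gd ud : ℕ → ℤ → Prop} {A B : ℕ → ℤ → ℝ} {S S' : ℝ}

theorem SlR.mono (h : SlR s gd ud A S) {ud' : ℕ → ℤ → Prop} (hs : ∀ k y, ud' k y → ud k y)
    (hS : S ≤ S') : SlR s gd ud' A S' :=
  fun L x ud'' h1 h2 h3 => (h L x ud'' h1 (fun k y hy => hs k y (h2 k y hy)) h3).mono hS

theorem SlR.add (hA : SlR s gd ud A S) (hB : SlR s gd ud B S') :
    SlR s gd ud (fun k => A k + B k) (S + S') := by
  intro L x ud' h1 h2 h3
  refine ((hA L x ud' h1 h2 h3).add (hB L x ud' h1 h2 h3)).congr fun k _ y => ?_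
  unfold cutR
  split_ifs
  · rfl
  · rw [add_zero]

theorem slR_st {F : ℤ → ℝ} {e : ℝ} (he : 0 < e) (hen : En (gr 7 s) ud F e) :
    SlR s gd ud (st F) (68 * √e) :=
  fun _ _ _ h1 h2 _ => cslot0_st h1 he fun k y hy => hen k y (h2 k y hy)

/-- a block slot (labels of a big region, energies and packing on the used cells) -/
theorem slR_mv {L : ℕ} {x : ℤ} (hU : Rgn (gr 7 s) gd L x ud) {t : ℕ → ℤ → ℕ}
    (hl : Lab (gr 7 s) L t) {F : ℕ → ℤ → ℝ} {e K : ℝ} (he : 0 < e) (hK : 1 ≤ K)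
    (hen : ∀ k y, ud k y →
      dot ((gr 7 s).cube k y) (F (t k y)) (F (t k y)) ≤ e * cd (gr 7 s) k y)
    (hp : ∀ k y, ud k y → tops (gr 7 s) ud t k y ≤ K * cd (gr 7 s) k y) :
    SlR s gd ud (mv t F) (100 * √(e * K)) := by
  intro L' x' ud' h1 h2 h3
  have hL : L' ≤ L := (hU.bel L' x' (h2 L' x' h3)).1
  have hb : CBlk0 s L' (cutR ud' (mv t F)) e (K + 1) := by
    refine cblk0_cut (ev := fun k y => t k y = k) h1 he.le (by linarith) ?_ ?_ ?_ ?_
    · intro k y hu z hz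
      rw [hl.const k (hU.bel k y (h2 k y hu)).1 y z hz]
    · intro k y hk hu hne
      have h4 := hl.ge k (by omega) y
      have h5 : t (k + 1) y = t k y := hl.btw k (by omega) y (k + 1) (by omega) (by omega)
      simp only [mv, h5]
    · intro k y hu
      refine le_trans (le_of_eq ?_) (hen k y (h2 k y hu))
      unfold dot mv
      exact sum_congr rfl fun z hz => by rw [hl.const k (hU.bel k y (h2 k y hu)).1 y z hz]
    · intro k y hu
      refine le_trans ?_ (hp k y (h2 k y hu))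
      unfold tops
      refine sum_le_sum fun i _ => sum_le_sum fun z _ => ?_
      by_cases h4 : ud' i z ∧ t i z = i
      · rw [if_pos h4, if_pos ⟨h2 i z h4.1, h4.2⟩]
      · rw [if_neg h4]; split_ifs <;> norm_num
  refine (hb.toCSlot0 he (by linarith)).mono ?_
  have h6 : e ≤ e * K := le_mul_of_one_le_right he.le hK
  have h7 : √(e * (1 + 1152 * (K + 1))) ≤ 50 * √(e * K) := by
    rw [Real.sqrt_le_left (by positivity), mul_pow, Real.sq_sqrt (by positivity)]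
    nlinarith
  linarith

/-- the same for the block pairs of `H8/Step` -/
theorem slR_fam {L : ℕ} {x : ℤ} (hU : Rgn (gr 7 s) gd L x ud) {t : ℕ → ℤ → ℕ}
    {F : Fin 2 → ℕ → ℤ → ℝ} {e K : ℝ} (he : 0 < e) (hK : 1 ≤ K)
    (hF : Fam2 (gr 7 s) ud L t F e K) (j : Fin 2) :
    SlR s gd ud (mv t (F j)) (100 * √(e * K)) :=
  slR_mv hU hF.lab he hK (hF.en j) hF.pack

/-- a region with an unused top is empty -/
theorem rgn_empty {X : Type*} {g : Grid X} {gd ud : ℕ → X → Prop} {L : ℕ} {x : X}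
    (h : Rgn g gd L x ud) (hx : ¬ ud L x) (k : ℕ) (y : X) : ¬ ud k y := by
  intro hu
  obtain ⟨h1, h2⟩ := h.bel k y hu
  exact hx ((h.const L x y h2).1 (h.up' h1 le_rfl hu))

theorem T1_empty {X : Type*} {s : Sl X α} {ud : ℕ → X → Prop} (h : ∀ k y, ¬ ud k y)
    (A : ℕ → X → ℝ) : T1 s ud A = 0 :=
  sum_eq_zero fun _ _ => if_neg (h _ _)

variable {nv : N4 (gr 7 s) α} {CP a b c : ℝ} {C D : ℕ → ℤ → ℝ}

theorem bb1 (hCP : 0 ≤ CP) (hb : BoxHyp nv gd CP) (σ : Equiv.Perm (Fin 4)) (ha0 : 0 ≤ a)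
    (hb0 : 0 ≤ b) (hc0 : 0 ≤ c) (hB : SlR s gd ud B a) (hC : SlR s gd ud C b)
    (hD : SlR s gd ud D c) :
    BB (gr 7 s) (sl1 (nv.toNV σ) B C D) gd ud (CP * (a * b * c)) := by
  intro L x ud' h1 h2 F E hE hF
  have hc := (cd_pos (gr 7 s) L x).le
  by_cases h3 : ud' L x
  · have h4 := T4_of_box hb σ h1 h3 (cslot0_st h1 hE hF) (hB L x ud' h1 h2 h3)
      (hC L x ud' h1 h2 h3) (hD L x ud' h1 h2 h3)
    refine h4.trans (mul_le_mul_of_nonneg_right ?_ hc)
    have h5 : 0 ≤ CP * (a * b * c) * √E := by positivity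
    linarith
  · rw [T1_empty (rgn_empty h1 h3)]; positivity

theorem bb2 (hCP : 0 ≤ CP) (hb : BoxHyp nv gd CP) (σ : Equiv.Perm (Fin 4)) (ha0 : 0 ≤ a)
    (hb0 : 0 ≤ b) (hc0 : 0 ≤ c) (hA : SlR s gd ud A a) (hC : SlR s gd ud C b)
    (hD : SlR s gd ud D c) :
    BB (gr 7 s) (sl2 (nv.toNV σ) A C D) gd ud (CP * (a * b * c)) := by
  intro L x ud' h1 h2 F E hE hF
  have hc := (cd_pos (gr 7 s) L x).le
  by_cases h3 : ud' L x
  · have h4 := T4_of_box hb σ h1 h3 (hA L x ud' h1 h2 h3) (cslot0_st h1 hE hF)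
      (hC L x ud' h1 h2 h3) (hD L x ud' h1 h2 h3)
    refine h4.trans (mul_le_mul_of_nonneg_right ?_ hc)
    have h5 : 0 ≤ CP * (a * b * c) * √E := by positivity
    linarith
  · rw [T1_empty (rgn_empty h1 h3)]; positivity

theorem bb3 (hCP : 0 ≤ CP) (hb : BoxHyp nv gd CP) (σ : Equiv.Perm (Fin 4)) (ha0 : 0 ≤ a)
    (hb0 : 0 ≤ b) (hc0 : 0 ≤ c) (hA : SlR s gd ud A a) (hB : SlR s gd ud B b)
    (hD : SlR s gd ud D c) :
    BB (gr 7 s) (sl3 (nv.toNV σ) A B D) gd ud (CP * (a * b * c)) := by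
  intro L x ud' h1 h2 F E hE hF
  have hc := (cd_pos (gr 7 s) L x).le
  by_cases h3 : ud' L x
  · have h4 := T4_of_box hb σ h1 h3 (hA L x ud' h1 h2 h3) (hB L x ud' h1 h2 h3)
      (cslot0_st h1 hE hF) (hD L x ud' h1 h2 h3)
    refine h4.trans (mul_le_mul_of_nonneg_right ?_ hc)
    have h5 : 0 ≤ CP * (a * b * c) * √E := by positivity
    linarith
  · rw [T1_empty (rgn_empty h1 h3)]; positivity

theorem bb4 (hCP : 0 ≤ CP) (hb : BoxHyp nv gd CP) (σ : Equiv.Perm (Fin 4)) (ha0 : 0 ≤ a)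
    (hb0 : 0 ≤ b) (hc0 : 0 ≤ c) (hA : SlR s gd ud A a) (hB : SlR s gd ud B b)
    (hC : SlR s gd ud C c) :
    BB (gr 7 s) (sl4 (nv.toNV σ) A B C) gd ud (CP * (a * b * c)) := by
  intro L x ud' h1 h2 F E hE hF
  have hc := (cd_pos (gr 7 s) L x).le
  by_cases h3 : ud' L x
  · have h4 := T4_of_box hb σ h1 h3 (hA L x ud' h1 h2 h3) (hB L x ud' h1 h2 h3)
      (hC L x ud' h1 h2 h3) (cslot0_st h1 hE hF)
    refine h4.trans (mul_le_mul_of_nonneg_right ?_ hc)
    have h5 : 0 ≤ CP * (a * b * c) * √E := by positivity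
    linarith
  · rw [T1_empty (rgn_empty h1 h3)]; positivity

/-- slot 2 is additive for the families `N4.toNV` -/
theorem ad2_N4 (nv : N4 (gr 7 s) α) (σ : Equiv.Perm (Fin 4)) (A C D : ℕ → ℤ → ℝ) :
    (sl2 (nv.toNV σ) A C D).Ad := by
  intro N a a'
  have h := nv.add N (fun j => ![A (nv.sc N), a, C (nv.sc N), D (nv.sc N)] (σ j)) (σ.symm 1) a a'
  have key : ∀ x : ℤ → ℝ, Function.update (fun j => ![A (nv.sc N), a, C (nv.sc N),
      D (nv.sc N)] (σ j)) (σ.symm 1) x =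
      fun j => ![A (nv.sc N), x, C (nv.sc N), D (nv.sc N)] (σ j) := by
    intro x
    funext j
    by_cases hj : j = σ.symm 1
    · subst hj; rw [Function.update_self, Equiv.apply_symm_apply]; rfl
    · rw [Function.update_of_ne hj]
      have : σ j ≠ 1 := fun h0 => hj (by rw [← h0, Equiv.symm_apply_apply])
      generalize σ j = m at *
      fin_cases m <;> simp_all
  rw [key, key, key] at h
  exact h

/-- **the tiny slot 2 from the black box** -/
theorem T4_tiny2 (hCP : 0 ≤ CP) (hb : BoxHyp nv gd CP) (σ : Equiv.Perm (Fin 4)) (ha0 : 0 ≤ a)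
    (hb0 : 0 ≤ b) (hc0 : 0 ≤ c) (hA : SlR s gd ud A a) (hC : SlR s gd ud C b)
    (hD : SlR s gd ud D c) {L : ℕ} {x : ℤ} (h : Rgn (gr 7 s) gd L x ud) (F : ℕ → ℤ → ℝ) :
    T4 (nv.toNV σ) ud A (fun k => ∑ i ∈ Icc k L, F i) C D ≤
      4 * (CP * (a * b * c)) * ∑ i ∈ range (L + 1), ∑ z ∈ (gr 7 s).cube L x,
        if ud i z then √(en (gr 7 s) (F i) i z) else 0 :=
  ts2 (by positivity) (ad2_N4 nv σ A C D) (bb2 hCP hb σ ha0 hb0 hc0 hA hC hD) h F

/-- **the tiny slot 1 from the black box** -/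
theorem T4_tiny1' (hCP : 0 ≤ CP) (hb : BoxHyp nv gd CP) (σ : Equiv.Perm (Fin 4)) (ha0 : 0 ≤ a)
    (hb0 : 0 ≤ b) (hc0 : 0 ≤ c) (hB : SlR s gd ud B a) (hC : SlR s gd ud C b)
    (hD : SlR s gd ud D c) {L : ℕ} {x : ℤ} (h : Rgn (gr 7 s) gd L x ud) (F : ℕ → ℤ → ℝ) :
    T4 (nv.toNV σ) ud (fun k => ∑ i ∈ Icc k L, F i) B C D ≤
      4 * (CP * (a * b * c)) * ∑ i ∈ range (L + 1), ∑ z ∈ (gr 7 s).cube L x,
        if ud i z then √(en (gr 7 s) (F i) i z) else 0 :=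
  ts2 (by positivity) (ad1 _ B C D) (bb1 hCP hb σ ha0 hb0 hc0 hB hC hD) h F

end

end Vale.Agent.P141.H998
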