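import Vale.Agent.P141.H998.TinyBox

/-!
# P141, line END, module (E-TS), part 3: the sum over the cells

`sum_pts_cells`: the sum over the points of a cell of the local L2 average = the sum over the
sub-cells `Q` of `√(#Q * dot Q F F)`.  `T4_tiny_of`: TS2 with the right side replaced by any bounds
`c i` of the sums over the cells of the scale `i`, also for finite families of births.
-/

namespace Vale.Agent.P141.H998

open Finset
open Vale.Agent.P141.H315 Vale.Agent.P141.H347 Vale.Agent.P141.H8 Vale.Agent.P141.H935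

noncomputable section

open scoped Classical

variable {X α : Type*} {g : Grid X}

/-- the cells of the scale `i` inside the cell `(L, x)` -/
def cells (g : Grid X) (i L : ℕ) (x : X) : Finset (Finset X) := (g.cube L x).image (g.cube i)

theorem mem_cells {i L : ℕ} {x : X} {Q : Finset X} :
    Q ∈ cells g i L x ↔ ∃ z ∈ g.cube L x, g.cube i z = Q := by
  unfold cells; rw [mem_image]

/-- the points of one cell -/
theorem filter_cell {i L : ℕ} (hi : i ≤ L) {x z : X} (hz : z ∈ g.cube L x) :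
    (g.cube L x).filter (fun y => g.cube i y = g.cube i z) = g.cube i z := by
  ext y
  rw [mem_filter]
  constructor
  · rintro ⟨_, h⟩
    rw [← h]; exact g.mem i y
  · intro h
    exact ⟨g.cube_subset hi hz h, g.eq_of_mem i z y h⟩

theorem sqrt_cell (F : X → ℝ) (i : ℕ) (z : X) :
    (#(g.cube i z) : ℝ) * √(en g F i z) = √(#(g.cube i z) * dot (g.cube i z) F F) := by
  have hc : (0 : ℝ) < #(g.cube i z) := cd_pos g i z
  have h1 : (#(g.cube i z) : ℝ) * dot (g.cube i z) F F =
      (#(g.cube i z) : ℝ) ^ 2 * en g F i z := by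
    unfold en cd
    field_simp
  rw [h1, Real.sqrt_mul (by positivity), Real.sqrt_sq hc.le]

/-- sum over the points = sum over the cells, for a cell-constant function -/
theorem sum_pts {i L : ℕ} (hi : i ≤ L) (x : X) (f : X → ℝ) (c : Finset X → ℝ)
    (hf : ∀ z ∈ g.cube L x, (#(g.cube i z) : ℝ) * f z = c (g.cube i z)) :
    ∑ z ∈ g.cube L x, f z = ∑ Q ∈ cells g i L x, c Q := by
  have h0 : ∀ z ∈ g.cube L x, g.cube i z ∈ cells g i L x := fun z hz => mem_image_of_mem _ hz
  rw [← sum_fiberwise_of_maps_to h0]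
  refine sum_congr rfl fun Q hQ => ?_
  obtain ⟨z, hz, rfl⟩ := mem_cells.1 hQ
  have hc : (0 : ℝ) < #(g.cube i z) := cd_pos g i z
  have h2 : ∀ y ∈ (g.cube L x).filter (fun y => g.cube i y = g.cube i z),
      f y = c (g.cube i z) / #(g.cube i z) := by
    intro y hy
    obtain ⟨h3, h4⟩ := mem_filter.1 hy
    have h5 := hf y h3
    rw [h4] at h5
    rw [← h5]
    field_simp
  rw [sum_congr rfl h2, filter_cell hi hz, sum_const, nsmul_eq_mul]
  field_simp

theorem sum_pts_cells {i L : ℕ} (hi : i ≤ L) (x : X) (F : X → ℝ) :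
    ∑ z ∈ g.cube L x, √(en g F i z) = ∑ Q ∈ cells g i L x, √(#Q * dot Q F F) :=
  sum_pts hi x _ _ fun z _ => sqrt_cell F i z

/-- the same with the used cells only -/
theorem sum_pts_used {gd ud : ℕ → X → Prop} {i L : ℕ} {x : X} (h : Rgn g gd L x ud) (hi : i ≤ L)
    (F : X → ℝ) :
    ∑ z ∈ g.cube L x, (if ud i z then √(en g F i z) else 0) =
      ∑ Q ∈ cells g i L x, (if ∃ z ∈ Q, ud i z then √(#Q * dot Q F F) else 0) := by
  refine sum_pts hi x _ _ fun z _ => ?_
  have h1 : (∃ y ∈ g.cube i z, ud i y) ↔ ud i z :=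
    ⟨fun ⟨y, hy, hu⟩ => (h.const i z y hy).1 hu, fun hu => ⟨z, g.mem i z, hu⟩⟩
  simp only [h1]
  split_ifs
  · exact sqrt_cell F i z
  · exact mul_zero _

/-- the local L2 average is subadditive -/
theorem sqrt_en_sum {κ : Type*} (t : Finset κ) (F : κ → X → ℝ) (i : ℕ) (z : X) :
    √(en g (∑ j ∈ t, F j) i z) ≤ ∑ j ∈ t, √(en g (F j) i z) := by
  have key : ∀ a b : X → ℝ, √(en g (a + b) i z) ≤ √(en g a i z) + √(en g b i z) := by
    intro a b
    have hc := cd_pos g i z
    have h1 : ∀ f : X → ℝ, √(en g f i z) = √(∑ y ∈ g.cube i z, f y ^ 2) / √(cd g i z) := by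
      intro f
      unfold en dot
      rw [Real.sqrt_div' _ hc.le]
      congr 2
      exact sum_congr rfl fun y _ => by ring
    rw [h1, h1, h1, ← add_div]
    refine div_le_div_of_nonneg_right ?_ (Real.sqrt_nonneg _)
    have h2 := Real.Lp_add_le (g.cube i z) a b (p := 2) (by norm_num)
    simp only [Real.rpow_two, sq_abs, ← Real.sqrt_eq_rpow] at h2
    exact h2
  induction t using Finset.induction_on with
  | empty =>
    rw [sum_empty, sum_empty]
    unfold en dot
    simp
  | insert j t hj ih =>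
    rw [sum_insert hj, sum_insert hj]
    exact (key _ _).trans (add_le_add le_rfl ih)

variable {s : Sl X α} {gd ud : ℕ → X → Prop} {L : ℕ} {x : X}

/-- **(TS2), cell form**: a finite family of births `j`, each with its increments `F j i` -/
theorem ts2_fam {κ : Type*} (t : Finset κ) {b : ℝ} (hb : 0 ≤ b) (hs : s.Ad)
    (hB : BB g s gd ud b) (h : Rgn g gd L x ud) (F : κ → ℕ → X → ℝ) :
    T1 s ud (fun k => ∑ i ∈ Icc k L, ∑ j ∈ t, F j i) ≤
      4 * b * ∑ j ∈ t, ∑ i ∈ range (L + 1),
        ∑ Q ∈ cells g i L x, √(#Q * dot Q (F j i) (F j i)) := by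
  refine (ts2 hb hs hB h fun i => ∑ j ∈ t, F j i).trans ?_
  refine mul_le_mul_of_nonneg_left ?_ (by positivity)
  have e0 : (∑ j ∈ t, ∑ i ∈ range (L + 1), ∑ Q ∈ cells g i L x, √(#Q * dot Q (F j i) (F j i))) =
      ∑ i ∈ range (L + 1), ∑ j ∈ t, ∑ Q ∈ cells g i L x, √(#Q * dot Q (F j i) (F j i)) := sum_comm
  rw [e0]
  refine sum_le_sum fun i hi => ?_
  have hiL : i ≤ L := by have := mem_range.1 hi; omega
  have h1 : ∀ z ∈ g.cube L x, (if ud i z then √(en g (∑ j ∈ t, F j i) i z) else 0) ≤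
      ∑ j ∈ t, √(en g (F j i) i z) := by
    intro z _
    split_ifs
    · exact sqrt_en_sum t (fun j => F j i) i z
    · exact sum_nonneg fun j _ => Real.sqrt_nonneg _
  refine (sum_le_sum h1).trans (le_of_eq ?_)
  rw [sum_comm]
  exact sum_congr rfl fun j _ => sum_pts_cells hiL x (F j i)

/-- **(TS2), cell form**, one birth -/
theorem ts2_cells {b : ℝ} (hb : 0 ≤ b) (hs : s.Ad) (hB : BB g s gd ud b) (h : Rgn g gd L x ud)
    (F : ℕ → X → ℝ) :
    T1 s ud (fun k => ∑ i ∈ Icc k L, F i) ≤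
      4 * b * ∑ i ∈ range (L + 1), ∑ Q ∈ cells g i L x, √(#Q * dot Q (F i) (F i)) := by
  have h1 := ts2_fam (κ := Unit) {()} hb hs hB h fun _ => F
  simpa using h1

/-- **(TS1), cell form**: a static function cut to the cells of one scale -/
theorem ts1_cells {b : ℝ} (hb : 0 ≤ b) (hB : BB g s gd ud b) (h : Rgn g gd L x ud) {i : ℕ}
    (hi : i ≤ L) (F : X → ℝ) :
    T1 s (Lo ud i) (st F) ≤ 4 * b * ∑ Q ∈ cells g i L x, √(#Q * dot Q F F) := by
  rw [T1_cells h hi, ← sum_pts_cells hi, mul_sum]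
  refine sum_le_sum fun z _ => ?_
  split_ifs with hu
  · have h1 := ts1_avg hb (hB.mono fun k y (hy : Bw g ud i z k y) => hy.1) (rgn_bw h hi z) F
    rw [inv_mul_le_iff₀ (cd_pos g i z)]
    refine h1.trans (le_of_eq ?_)
    ring
  · positivity

end

end Vale.Agent.P141.H998
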